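/-
P369, classical inputs: finite matrix algebra behind `-η² S'' = ∫ E(s) ds`.
-/
import Mathlib

open Matrix Finset
open scoped ComplexConjugate

noncomputable section

namespace Vale.Agent.P369Cl

variable {ι : Type*} [Fintype ι] [DecidableEq ι] {n : ℕ}

/-- Real diagonal matrix. -/
def dg (f : ι → ℝ) : Matrix ι ι ℂ := diagonal fun k => (f k : ℂ)

/-- `Σ_k ℓ_k Re X_kk`. -/
def trl (ℓ : ι → ℝ) (X : Matrix ι ι ℂ) : ℝ := ∑ k, ℓ k * (X k k).re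

/-- `Σ_i A_i^* A_i`. -/
def NN (A : Fin n → Matrix ι ι ℂ) : Matrix ι ι ℂ := ∑ i, (A i)ᴴ * A i

/-- Lindblad map of the family `A`. -/
def LL (A : Fin n → Matrix ι ι ℂ) (X : Matrix ι ι ℂ) : Matrix ι ι ℂ :=
  (∑ i, A i * X * (A i)ᴴ) - (1 / 2 : ℂ) • (NN A * X + X * NN A)

/-- Divided difference of the logarithm. -/
def ddl (a b : ℝ) : ℝ := if a = b then 1 / a else (Real.log a - Real.log b) / (a - b)

lemma sub_mul_ddl (a b : ℝ) : (a - b) * ddl a b = Real.log a - Real.log b := by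
  unfold ddl
  split_ifs with h
  · simp [h]
  · field_simp [sub_ne_zero.2 h]

lemma ddl_comm (a b : ℝ) : ddl a b = ddl b a := by
  unfold ddl
  by_cases h : a = b
  · simp [h]
  · rw [if_neg h, if_neg (Ne.symm h), ← neg_sub (Real.log b) (Real.log a), ← neg_sub b a,
      neg_div_neg_eq]

lemma trl_add (ℓ : ι → ℝ) (X Y : Matrix ι ι ℂ) : trl ℓ (X + Y) = trl ℓ X + trl ℓ Y := by
  simp [trl, mul_add, Finset.sum_add_distrib]

lemma trl_sub (ℓ : ι → ℝ) (X Y : Matrix ι ι ℂ) : trl ℓ (X - Y) = trl ℓ X - trl ℓ Y := by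
  simp [trl, mul_sub, Finset.sum_sub_distrib]

lemma trl_smul (ℓ : ι → ℝ) (c : ℝ) (X : Matrix ι ι ℂ) :
    trl ℓ ((c : ℂ) • X) = c * trl ℓ X := by
  simp [trl, Finset.mul_sum]; congr 1; funext k; ring

lemma trl_half (ℓ : ι → ℝ) (X : Matrix ι ι ℂ) : trl ℓ ((1 / 2 : ℂ) • X) = 1 / 2 * trl ℓ X := by
  rw [show (1 / 2 : ℂ) = ((1 / 2 : ℝ) : ℂ) by norm_num, trl_smul]

lemma trl_sum {κ : Type*} (s : Finset κ) (ℓ : ι → ℝ) (X : κ → Matrix ι ι ℂ) :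
    trl ℓ (∑ j ∈ s, X j) = ∑ j ∈ s, trl ℓ (X j) := by
  classical
  induction s using Finset.induction_on with
  | empty => simp [trl]
  | insert a s ha ih => simp [Finset.sum_insert ha, trl_add, ih]

lemma trl_conjTranspose (ℓ : ι → ℝ) (X : Matrix ι ι ℂ) : trl ℓ Xᴴ = trl ℓ X := by
  simp [trl]

lemma trl_dg (ℓ f g : ι → ℝ) (X : Matrix ι ι ℂ) :
    trl ℓ (dg f * X * dg g) = trl (fun k => ℓ k * (f k * g k)) X := by
  simp [trl, dg, diagonal_mul, mul_diagonal]; congr 1; funext k; ring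

lemma trl_dg_left (ℓ f : ι → ℝ) (X : Matrix ι ι ℂ) :
    trl ℓ (dg f * X) = trl (fun k => ℓ k * f k) X := by
  simp [trl, dg, diagonal_mul]; congr 1; funext k; ring

lemma trl_dg_right (ℓ g : ι → ℝ) (X : Matrix ι ι ℂ) :
    trl ℓ (X * dg g) = trl (fun k => ℓ k * g k) X := by
  simp [trl, dg, mul_diagonal]; congr 1; funext k; ring

lemma dg_conjTranspose (f : ι → ℝ) : (dg f)ᴴ = dg f := by
  ext i j
  by_cases h : i = j
  · subst h; simp [dg]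
  · simp [dg, h, Ne.symm h]

lemma dg_mul (f g : ι → ℝ) : dg f * dg g = dg (fun k => f k * g k) := by
  simp [dg, diagonal_mul_diagonal]

lemma dg_mul_assoc (f g : ι → ℝ) (X : Matrix ι ι ℂ) :
    dg f * (dg g * X) = dg (fun k => f k * g k) * X := by
  rw [← Matrix.mul_assoc, dg_mul]

lemma dg_one : dg (fun _ : ι => (1 : ℝ)) = 1 := by
  simp [dg]

/-- One pair of the static identity; `h1`, `h2` are the resolvent equation and its adjoint. -/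
lemma pair_identity (a b G Z : Matrix ι ι ℂ) (s : ℂ)
    (h1 : s • (G * Z) = b * Z - Z * G) (h2 : s • (Z * Gᴴ) = Z * bᴴ - Gᴴ * Z) :
    ((a * Gᴴ - Gᴴ * a) * Z * (G * aᴴ - aᴴ * G)).trace
      + s * ((a * G - G * a) * Z * (Gᴴ * aᴴ - aᴴ * Gᴴ)).trace
    = ((G * Gᴴ + s • (Gᴴ * G)) *
        (a * Z * aᴴ - (1 / 2 : ℂ) • (aᴴ * a * Z + Z * (aᴴ * a)))).trace
      - (Gᴴ * (a * (b * Z) * aᴴ - (1 / 2 : ℂ) • (aᴴ * a * (b * Z) + b * Z * (aᴴ * a)))).trace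
      - (G * (a * (Z * bᴴ) * aᴴ - (1 / 2 : ℂ) • (aᴴ * a * (Z * bᴴ) + Z * bᴴ * (aᴴ * a)))).trace := by
  have cyc : ∀ X, (a * X * aᴴ).trace = (aᴴ * a * X).trace := fun X =>
    Matrix.trace_mul_cycle a X aᴴ
  have cyc' : ∀ X Y, (X * (aᴴ * a) * Y).trace = (aᴴ * a * (Y * X)).trace := fun X Y => by
    rw [Matrix.mul_assoc X, Matrix.trace_mul_comm, Matrix.mul_assoc]
  have q1a : (a * (Gᴴ * Z * G) * aᴴ).trace
      = (aᴴ * a * (Z * bᴴ * G)).trace - s * (aᴴ * a * (Z * Gᴴ * G)).trace := by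
    have e : Gᴴ * Z = Z * bᴴ - s • (Z * Gᴴ) := by rw [h2]; abel
    rw [cyc, e]
    simp [Matrix.sub_mul, Matrix.mul_sub, Matrix.smul_mul, Matrix.mul_smul]
  have q1b : (a * (Gᴴ * Z * G) * aᴴ).trace
      = (aᴴ * a * (Gᴴ * b * Z)).trace - s * (aᴴ * a * (Gᴴ * G * Z)).trace := by
    have e : Z * G = b * Z - s • (G * Z) := by rw [h1]; abel
    rw [cyc, Matrix.mul_assoc Gᴴ Z G, e]
    simp [Matrix.mul_sub, Matrix.mul_smul, Matrix.mul_assoc]
  have q5a : s * (a * (G * Z * Gᴴ) * aᴴ).trace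
      = (aᴴ * a * (b * Z * Gᴴ)).trace - (aᴴ * a * (Z * G * Gᴴ)).trace := by
    rw [cyc, ← smul_eq_mul, ← Matrix.trace_smul, ← Matrix.mul_smul, ← Matrix.smul_mul, h1]
    simp [Matrix.sub_mul, Matrix.mul_sub]
  have q5b : s * (a * (G * Z * Gᴴ) * aᴴ).trace
      = (aᴴ * a * (G * Z * bᴴ)).trace - (aᴴ * a * (G * Gᴴ * Z)).trace := by
    rw [cyc, Matrix.mul_assoc G Z Gᴴ, ← smul_eq_mul, ← Matrix.trace_smul, ← Matrix.mul_smul,
      ← Matrix.mul_smul, h2]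
    simp [Matrix.mul_sub, Matrix.mul_assoc]
  have q6 : s * (a * (G * Z) * aᴴ * Gᴴ).trace
      = (Gᴴ * (a * (b * Z) * aᴴ)).trace - (Gᴴ * a * Z * G * aᴴ).trace := by
    rw [← smul_eq_mul, ← Matrix.trace_smul, ← Matrix.smul_mul, ← Matrix.smul_mul,
      ← Matrix.mul_smul, h1, Matrix.trace_mul_comm]
    simp [Matrix.sub_mul, Matrix.mul_sub, Matrix.mul_assoc]
  have q7 : s * (G * a * (Z * Gᴴ) * aᴴ).trace
      = (G * (a * (Z * bᴴ) * aᴴ)).trace - (a * Gᴴ * Z * aᴴ * G).trace := by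
    rw [← smul_eq_mul, ← Matrix.trace_smul, ← Matrix.smul_mul, ← Matrix.mul_smul, h2]
    rw [Matrix.trace_mul_comm (a * Gᴴ * Z * aᴴ) G]
    simp [Matrix.sub_mul, Matrix.mul_sub, Matrix.mul_assoc]
  -- the left-hand side in eight terms
  have hL : ((a * Gᴴ - Gᴴ * a) * Z * (G * aᴴ - aᴴ * G)).trace
      + s * ((a * G - G * a) * Z * (Gᴴ * aᴴ - aᴴ * Gᴴ)).trace
      = (a * (Gᴴ * Z * G) * aᴴ).trace - (a * Gᴴ * Z * aᴴ * G).trace
        - (Gᴴ * a * Z * G * aᴴ).trace + (Gᴴ * a * Z * aᴴ * G).trace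
        + (s * (a * (G * Z * Gᴴ) * aᴴ).trace - s * (a * (G * Z) * aᴴ * Gᴴ).trace
          - s * (G * a * (Z * Gᴴ) * aᴴ).trace + s * (G * a * Z * aᴴ * Gᴴ).trace) := by
    simp only [Matrix.sub_mul, Matrix.mul_sub, Matrix.trace_sub, Matrix.mul_assoc]
    ring
  -- cyclic normal forms of the right-hand side
  have r1 : (Gᴴ * a * Z * aᴴ * G).trace = (G * Gᴴ * (a * Z * aᴴ)).trace := by
    rw [Matrix.trace_mul_comm]; simp [Matrix.mul_assoc]
  have r2 : (G * a * Z * aᴴ * Gᴴ).trace = (Gᴴ * G * (a * Z * aᴴ)).trace := by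
    rw [Matrix.trace_mul_comm]; simp [Matrix.mul_assoc]
  have w1 : ∀ X, (X * (aᴴ * a * Z)).trace = (aᴴ * a * (Z * X)).trace := fun X => by
    rw [Matrix.trace_mul_comm, Matrix.mul_assoc]
  have w2 : ∀ X, (X * (Z * (aᴴ * a))).trace = (aᴴ * a * (X * Z)).trace := fun X => by
    rw [← Matrix.mul_assoc, Matrix.trace_mul_comm]
  have u1 : ∀ X Y, (X * (aᴴ * a * Y)).trace = (aᴴ * a * (Y * X)).trace := fun X Y => by
    rw [Matrix.trace_mul_comm, Matrix.mul_assoc]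
  have u2 : ∀ X Y, (X * (Y * (aᴴ * a))).trace = (aᴴ * a * (X * Y)).trace := fun X Y => by
    rw [← Matrix.mul_assoc, Matrix.trace_mul_comm]
  rw [hL, q6, q7, r1, r2]
  simp only [Matrix.add_mul, Matrix.mul_sub, Matrix.smul_mul, Matrix.mul_smul, Matrix.mul_add,
    Matrix.trace_sub, Matrix.trace_add, Matrix.trace_smul, smul_eq_mul, smul_add, smul_smul]
  rw [u1 (G * Gᴴ) Z, u2 (G * Gᴴ) Z, u1 (Gᴴ * G) Z, u2 (Gᴴ * G) Z, u1 Gᴴ (b * Z), u2 Gᴴ (b * Z),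
    u1 G (Z * bᴴ), u2 G (Z * bᴴ)]
  simp only [Matrix.mul_assoc] at q1a q1b q5a q5b ⊢
  linear_combination (1 / 2 : ℂ) * q1a + (1 / 2 : ℂ) * q1b + (1 / 2 : ℂ) * q5a + (1 / 2 : ℂ) * q5b

lemma LL_conjTranspose (A : Fin n → Matrix ι ι ℂ) (X : Matrix ι ι ℂ) : (LL A X)ᴴ = LL A Xᴴ := by
  simp [LL, NN, Matrix.conjTranspose_sum, Matrix.conjTranspose_mul, Matrix.mul_assoc, add_comm]

/-- The static identity: the averaged commutator norm as a trace against `LL`. -/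
lemma static_identity (A G : Fin n → Matrix ι ι ℂ) (Z : Matrix ι ι ℂ) (hZ : Zᴴ = Z) (s : ℝ)
    (h1 : ∀ j, (s : ℂ) • (G j * Z) = A j * Z - Z * G j) :
    (∑ i, ∑ j, (((A i * (G j)ᴴ - (G j)ᴴ * A i) * Z * (G j * (A i)ᴴ - (A i)ᴴ * G j)).trace
      + (s : ℂ) * ((A i * G j - G j * A i) * Z * ((G j)ᴴ * (A i)ᴴ - (A i)ᴴ * (G j)ᴴ)).trace)).re
    = ((∑ j, (G j * (G j)ᴴ + (s : ℂ) • ((G j)ᴴ * G j))) * LL A Z).trace.re
      - 2 * (∑ j, ((G j)ᴴ * LL A (A j * Z)).trace).re := by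
  have h2 : ∀ j, (s : ℂ) • (Z * (G j)ᴴ) = Z * (A j)ᴴ - (G j)ᴴ * Z := fun j => by
    have := congrArg Matrix.conjTranspose (h1 j)
    simpa [hZ] using this
  have hconj : ∀ j, (G j * LL A (Z * (A j)ᴴ)).trace = conj ((G j)ᴴ * LL A (A j * Z)).trace := by
    intro j
    rw [← Complex.star_def, ← Matrix.trace_conjTranspose, Matrix.conjTranspose_mul,
      LL_conjTranspose, Matrix.conjTranspose_mul, hZ, Matrix.conjTranspose_conjTranspose,
      Matrix.trace_mul_comm]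
  have hsplit : ∀ W X : Matrix ι ι ℂ, (W * LL A X).trace = ∑ i, (W * (A i * X * (A i)ᴴ
      - (1 / 2 : ℂ) • ((A i)ᴴ * A i * X + X * ((A i)ᴴ * A i)))).trace := by
    intro W X
    rw [← Matrix.trace_sum, ← Matrix.mul_sum]
    congr 2
    simp only [LL, NN, Finset.sum_sub_distrib, Finset.sum_mul, Finset.mul_sum, ← Finset.smul_sum,
      Finset.sum_add_distrib]
  have hpair := fun i j => pair_identity (A i) (A j) (G j) Z (s : ℂ) (h1 j) (h2 j)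
  simp only [hpair]
  rw [Finset.sum_comm, Finset.sum_congr rfl fun j _ => Finset.sum_sub_distrib _ _,
    Finset.sum_congr rfl fun j _ => congrArg₂ (· - ·) (Finset.sum_sub_distrib _ _) rfl]
  simp only [← hsplit]
  rw [Finset.sum_sub_distrib, Finset.sum_sub_distrib, ← Matrix.trace_sum, ← Finset.sum_mul]
  simp only [hconj, ← map_sum, Complex.sub_re, Complex.conj_re]
  ring

end Vale.Agent.P369Cl
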