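/-
P369, classical inputs: the two notions used in the statement.
-/
import Mathlib

noncomputable section

namespace Vale.Agent.P369Cl

/-- Gram matrix of the vectors `√pᵢ |√η αᵢ⟩`, where `|β⟩` is the coherent state at `β`. -/
def coherentGram {ι : Type*} {n : ℕ} (α : ι → Fin n → ℂ) (p : ι → ℝ) (η : ℝ) : Matrix ι ι ℂ :=
  Matrix.of fun a b => ((√(p a * p b) : ℝ) : ℂ) * Complex.exp ((η : ℂ) *
    (∑ k, (starRingEnd ℂ) (α a k) * α b k
      - ((((∑ k, Complex.normSq (α a k)) + ∑ k, Complex.normSq (α b k)) / 2 : ℝ) : ℂ)))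

/-- `- tr M log M` of a Hermitian matrix, through its eigenvalues. -/
def matrixEntropy {ι : Type*} [Fintype ι] [DecidableEq ι] (M : Matrix ι ι ℂ) : ℝ :=
  (M.charpoly.roots.map fun z => Real.negMulLog z.re).sum

end Vale.Agent.P369Cl
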