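/-
P369, classical inputs: passage from the eigenbasis of the state to the Gram picture.
-/
import Vale.Agent.P369Cl.Alg

open Matrix Finset

noncomputable section

namespace Vale.Agent.P369Cl

variable {ι : Type*} [Fintype ι] [DecidableEq ι] {n : ℕ}

/-- Matrices of the annihilators in the eigenbasis of the state. -/
def Am (lam : ι → ℝ) (D : Fin n → Matrix ι ι ℂ) (i : Fin n) : Matrix ι ι ℂ :=
  dg (fun k => √(lam k)) * D i * dg (fun k => (√(lam k))⁻¹)

/-- Gram-picture generator. -/
def Lg (D : Fin n → Matrix ι ι ℂ) (X : Matrix ι ι ℂ) : Matrix ι ι ℂ := LL (fun i => (D i)ᴴ) X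

omit [DecidableEq ι] in
lemma normSq_dd (N P : ℂ) {a b : ℝ} (ha : 0 < a) (hb : 0 < b) :
    ddl a b * Complex.normSq ((√a * √b : ℝ) * N
        - ((1 / 2 * (√b / √a + √a / √b) : ℝ) : ℂ) * P)
      = ddl a b * Complex.normSq (P - ((1 / 2 * (a + b) : ℝ) : ℂ) * N)
        - 1 / 4 * (a - b) * (Real.log a - Real.log b)
          * (Complex.normSq N - Complex.normSq P / (a * b)) := by
  obtain ⟨x, hx, rfl⟩ : ∃ x, 0 < x ∧ a = x ^ 2 :=
    ⟨√a, Real.sqrt_pos.2 ha, (Real.sq_sqrt ha.le).symm⟩
  obtain ⟨y, hy, rfl⟩ : ∃ y, 0 < y ∧ b = y ^ 2 :=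
    ⟨√b, Real.sqrt_pos.2 hb, (Real.sq_sqrt hb.le).symm⟩
  rw [← sub_mul_ddl (x ^ 2) (y ^ 2), Real.sqrt_sq hx.le, Real.sqrt_sq hy.le]
  simp only [Complex.normSq_apply, Complex.sub_re, Complex.sub_im, Complex.mul_re, Complex.mul_im,
    Complex.ofReal_re, Complex.ofReal_im]
  field_simp
  ring

lemma trl_sandwich (ℓ mu : ι → ℝ) {X : Matrix ι ι ℂ} (hX : Xᴴ = X) :
    trl ℓ (X * dg mu * X) = ∑ k, ∑ m, ℓ k * mu m * Complex.normSq (X k m) := by
  unfold trl
  refine Finset.sum_congr rfl fun k _ => ?_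
  rw [Matrix.mul_apply, Complex.re_sum, Finset.mul_sum]
  refine Finset.sum_congr rfl fun m _ => ?_
  have hc : X m k = star (X k m) := by rw [← Matrix.conjTranspose_apply, hX]
  rw [dg, mul_diagonal, hc, Complex.normSq_apply]
  simp
  ring

/-- The conversion identity. -/
theorem conv_identity (lam : ι → ℝ) (hlam : ∀ k, 0 < lam k) (D : Fin n → Matrix ι ι ℂ)
    (hc : ∀ i j, D i * D j = D j * D i) (hn : ∀ i j, D i * (D j)ᴴ = (D j)ᴴ * D i) :
    (∑ k, ∑ m, ddl (lam k) (lam m) * Complex.normSq (LL (Am lam D) (dg lam) k m))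
      - trl (fun k => Real.log (lam k)) (LL (Am lam D) (LL (Am lam D) (dg lam)))
      + 2 * ∑ j, (trl (fun k => Real.log (lam k))
          (LL (Am lam D) (Am lam D j * dg lam) * (Am lam D j)ᴴ)
        - trl (fun k => Real.log (lam k))
          ((Am lam D j)ᴴ * LL (Am lam D) (Am lam D j * dg lam)))
    = (∑ k, ∑ m, ddl (lam k) (lam m) * Complex.normSq (Lg D (dg lam) k m))
      + trl (fun k => Real.log (lam k)) (Lg D (Lg D (dg lam))) := by
  set r : ι → ℝ := fun k => √(lam k) with hr
  set q : ι → ℝ := fun k => (√(lam k))⁻¹ with hq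
  set mu : ι → ℝ := fun k => (lam k)⁻¹ with hmu
  set ℓ : ι → ℝ := fun k => Real.log (lam k) with hℓ
  set A := Am lam D with hA
  set N : Matrix ι ι ℂ := NN D with hN
  set P : Matrix ι ι ℂ := ∑ i, (D i)ᴴ * dg lam * D i with hP
  have hpos : ∀ k, 0 < r k := fun k => Real.sqrt_pos.2 (hlam k)
  have frq : (fun k => r k * q k) = fun _ => (1 : ℝ) := by
    funext k; simp only [hq, hr]; exact mul_inv_cancel₀ (hpos k).ne'
  have fqr : (fun k => q k * r k) = fun _ => (1 : ℝ) := by
    funext k; simp only [hq, hr]; exact inv_mul_cancel₀ (hpos k).ne'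
  have frr : (fun k => r k * r k) = lam := by
    funext k; simp only [hr]; exact Real.mul_self_sqrt (hlam k).le
  have fqq : (fun k => q k * q k) = mu := by
    funext k; simp only [hq, hmu]; rw [← mul_inv, Real.mul_self_sqrt (hlam k).le]
  have hrq : dg r * dg q = 1 := by rw [dg_mul, frq, dg_one]
  have hqr : dg q * dg r = 1 := by rw [dg_mul, fqr, dg_one]
  have hrr : dg r * dg r = dg lam := by rw [dg_mul, frr]
  have hqq : dg q * dg q = dg mu := by rw [dg_mul, fqq]
  have hrq' : ∀ X, dg r * (dg q * X) = X := fun X => by rw [← Matrix.mul_assoc, hrq, Matrix.one_mul]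
  have hqr' : ∀ X, dg q * (dg r * X) = X := fun X => by rw [← Matrix.mul_assoc, hqr, Matrix.one_mul]
  have hqq' : ∀ X, dg q * (dg q * X) = dg mu * X := fun X => by rw [← Matrix.mul_assoc, hqq]
  have hrr' : ∀ X, dg r * (dg r * X) = dg lam * X := fun X => by rw [← Matrix.mul_assoc, hrr]
  have hAi : ∀ i, A i = dg r * D i * dg q := fun i => rfl
  have hAH : ∀ i, (A i)ᴴ = dg q * (D i)ᴴ * dg r := fun i => by
    simp [hAi, dg_conjTranspose, Matrix.mul_assoc]
  have hNn : NN (fun i => (D i)ᴴ) = N := by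
    simp only [hN, NN, Matrix.conjTranspose_conjTranspose]
    exact Finset.sum_congr rfl fun i _ => hn i i
  have hDN : ∀ i, D i * N = N * D i := fun i => by
    simp only [hN, NN, Finset.mul_sum, Finset.sum_mul]
    refine Finset.sum_congr rfl fun j _ => ?_
    rw [← Matrix.mul_assoc, hn, Matrix.mul_assoc, hc, ← Matrix.mul_assoc]
  have hNsum : ∑ i, D i * (D i)ᴴ = N := by
    simp only [hN, NN]; exact Finset.sum_congr rfl fun i _ => hn i i
  have hDNH : ∀ i, (D i)ᴴ * N = N * (D i)ᴴ := fun i => by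
    have hNH : Nᴴ = N := by simp [hN, NN, Matrix.conjTranspose_sum]
    have := congrArg Matrix.conjTranspose (hDN i)
    simpa [hNH] using this.symm
  have hNH : Nᴴ = N := by simp [hN, NN, Matrix.conjTranspose_sum]
  have hPH : Pᴴ = P := by
    simp [hP, Matrix.conjTranspose_sum, dg_conjTranspose, Matrix.mul_assoc]
  have hQ : NN A = dg q * P * dg q := by
    simp only [NN, hP, Finset.mul_sum, Finset.sum_mul]
    refine Finset.sum_congr rfl fun i _ => ?_
    simp [hAi, Matrix.conjTranspose_mul, dg_conjTranspose, Matrix.mul_assoc, hrr']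
  have hAX : ∀ (i : Fin n) X, A i * (dg r * X * dg r) * (A i)ᴴ
      = dg r * (D i * X * (D i)ᴴ) * dg r := fun i X => by
    simp [hAi, Matrix.conjTranspose_mul, dg_conjTranspose, Matrix.mul_assoc, hqr', hrq']
  have hAZ : ∀ i, A i * dg lam * (A i)ᴴ = dg r * (D i * (D i)ᴴ) * dg r := fun i => by
    have := hAX i 1
    rw [Matrix.mul_one, hrr, Matrix.mul_one] at this
    exact this
  have hM : LL A (dg lam) = dg r * N * dg r
      - (1 / 2 : ℂ) • (dg q * P * dg r + dg r * P * dg q) := by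
    have e1 : NN A * dg lam = dg q * P * dg r := by
      rw [hQ, ← hrr]; simp [Matrix.mul_assoc, hqr']
    have e2 : dg lam * NN A = dg r * P * dg q := by
      rw [hQ, ← hrr]; simp [Matrix.mul_assoc, hrq']
    unfold LL
    rw [e1, e2, Finset.sum_congr rfl fun i _ => hAZ i, ← Finset.sum_mul, ← Finset.mul_sum, hNsum]
  have hMg : Lg D (dg lam) = P - (1 / 2 : ℂ) • (N * dg lam + dg lam * N) := by
    simp only [Lg, LL, hNn, Matrix.conjTranspose_conjTranspose, hP]
  -- primitives
  set n2 := trl (fun k => ℓ k * lam k) (N * N) with hn2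
  set pn := trl ℓ (P * N) with hpn
  set Y := trl (fun k => ℓ k * lam k) (∑ i, D i * (dg mu * P) * (D i)ᴴ) with hY
  set dpd := trl ℓ (∑ i, (D i)ᴴ * P * D i) with hdpd
  set pzp := trl ℓ (P * dg mu * P) with hpzp
  set qqv := trl (fun k => ℓ k * mu k) (P * P) with hqqv
  set nzn := trl ℓ (N * dg lam * N) with hnzn
  have flip : ∀ (f : ι → ℝ) (X : Matrix ι ι ℂ), trl f Xᴴ = trl f X := trl_conjTranspose
  have hY2 : trl (fun k => ℓ k * lam k) (∑ i, D i * (P * dg mu) * (D i)ᴴ) = Y := by
    rw [hY, ← flip]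
    simp [Matrix.conjTranspose_sum, dg_conjTranspose, hPH, Matrix.mul_assoc]
  have hpn2 : trl ℓ (N * P) = pn := by
    rw [hpn, ← flip]; simp [hPH, hNH]
  have hsand : ∀ X, trl ℓ (dg r * X * dg r) = trl (fun k => ℓ k * lam k) X := fun X => by
    rw [trl_dg]; congr 1; funext k; simp only [← congrFun frr k]
  have hqr2 : ∀ X, trl ℓ (dg q * X * dg r) = trl ℓ X := fun X => by
    rw [trl_dg]; congr 1; funext k; rw [congrFun fqr k, mul_one]
  have hrq2 : ∀ X, trl ℓ (dg r * X * dg q) = trl ℓ X := fun X => by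
    rw [trl_dg]; congr 1; funext k; rw [congrFun frq k, mul_one]
  have hqq2 : ∀ X, trl ℓ (dg q * X * dg q) = trl (fun k => ℓ k * mu k) X := fun X => by
    rw [trl_dg]; congr 1; funext k; simp only [← congrFun fqq k]
  -- the second iterate
  have hLL : trl ℓ (LL A (LL A (dg lam))) = n2 - Y - pn + 1 / 2 * pzp + 1 / 2 * qqv := by
    have t1 : trl ℓ (∑ i, A i * (dg r * N * dg r) * (A i)ᴴ) = n2 := by
      rw [Finset.sum_congr rfl fun i _ => hAX i N, ← Finset.sum_mul, ← Finset.mul_sum, hsand, hn2]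
      congr 1
      rw [Finset.sum_congr rfl fun i _ => by rw [hDN i, Matrix.mul_assoc], ← Finset.mul_sum, hNsum]
    have t2 : trl ℓ (∑ i, A i * (dg q * P * dg r) * (A i)ᴴ) = Y := by
      have : ∀ i, A i * (dg q * P * dg r) * (A i)ᴴ
          = dg r * (D i * (dg mu * P) * (D i)ᴴ) * dg r := fun i => by
        simp [hAi, Matrix.conjTranspose_mul, dg_conjTranspose, Matrix.mul_assoc, hrq', hqq']
      rw [Finset.sum_congr rfl fun i _ => this i, ← Finset.sum_mul, ← Finset.mul_sum, hsand, hY]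
    have t3 : trl ℓ (∑ i, A i * (dg r * P * dg q) * (A i)ᴴ) = Y := by
      have : ∀ i, A i * (dg r * P * dg q) * (A i)ᴴ
          = dg r * (D i * (P * dg mu) * (D i)ᴴ) * dg r := fun i => by
        simp [hAi, Matrix.conjTranspose_mul, dg_conjTranspose, Matrix.mul_assoc, hqr', hqq']
      rw [Finset.sum_congr rfl fun i _ => this i, ← Finset.sum_mul, ← Finset.mul_sum, hsand, hY2]
    have t4 : trl ℓ (NN A * (dg r * N * dg r)) = pn := by
      have : NN A * (dg r * N * dg r) = dg q * (P * N) * dg r := by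
        simp [hQ, Matrix.mul_assoc, hqr']
      rw [this, hqr2]
    have t5 : trl ℓ ((dg r * N * dg r) * NN A) = pn := by
      have : (dg r * N * dg r) * NN A = dg r * (N * P) * dg q := by
        simp [hQ, Matrix.mul_assoc, hrq']
      rw [this, hrq2, hpn2]
    have t6 : trl ℓ (NN A * (dg q * P * dg r)) = pzp := by
      have : NN A * (dg q * P * dg r) = dg q * (P * dg mu * P) * dg r := by
        simp [hQ, Matrix.mul_assoc, hqq']
      rw [this, hqr2]
    have t7 : trl ℓ (NN A * (dg r * P * dg q)) = qqv := by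
      have : NN A * (dg r * P * dg q) = dg q * (P * P) * dg q := by
        simp [hQ, Matrix.mul_assoc, hqr']
      rw [this, hqq2]
    have t8 : trl ℓ ((dg q * P * dg r) * NN A) = qqv := by
      have : (dg q * P * dg r) * NN A = dg q * (P * P) * dg q := by
        simp [hQ, Matrix.mul_assoc, hrq']
      rw [this, hqq2]
    have t9 : trl ℓ ((dg r * P * dg q) * NN A) = pzp := by
      have : (dg r * P * dg q) * NN A = dg r * (P * dg mu * P) * dg q := by
        simp [hQ, Matrix.mul_assoc, hqq']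
      rw [this, hrq2]
    rw [hM]
    simp only [LL, Matrix.mul_sub, Matrix.sub_mul, Matrix.mul_smul, Matrix.smul_mul,
      Matrix.mul_add, Matrix.add_mul, Finset.sum_sub_distrib, ← Finset.smul_sum,
      Finset.sum_add_distrib, trl_sub, trl_half, trl_add, smul_add, smul_sub]
    rw [t1, t2, t3, t4, t5, t6, t7, t8, t9]
    ring
  -- the bracket
  have hBh : ∑ j, (trl ℓ (LL A (A j * dg lam) * (A j)ᴴ) - trl ℓ ((A j)ᴴ * LL A (A j * dg lam)))
      = n2 - 3 / 2 * pn - 1 / 2 * Y + 1 / 2 * dpd + 1 / 2 * qqv := by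
    have b1 : trl ℓ (∑ j, ∑ i, A i * (A j * dg lam) * (A i)ᴴ * (A j)ᴴ) = n2 := by
      have : ∀ i j, A i * (A j * dg lam) * (A i)ᴴ * (A j)ᴴ
          = dg r * (D i * (D i)ᴴ * (D j * (D j)ᴴ)) * dg r := fun i j => by
        have e : A i * (A j * dg lam) * (A i)ᴴ * (A j)ᴴ
            = dg r * (D i * D j * (D i)ᴴ * (D j)ᴴ) * dg r := by
          simp [hAi, Matrix.conjTranspose_mul, dg_conjTranspose, Matrix.mul_assoc, ← hrr, hqr', hrq']
        rw [e, Matrix.mul_assoc (D i) (D j), hn j i, ← Matrix.mul_assoc (D i),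
          Matrix.mul_assoc (D i * (D i)ᴴ)]
      rw [Finset.sum_comm]
      simp only [this, ← Finset.sum_mul, ← Finset.mul_sum]
      rw [hNsum, hsand]
    have b2 : trl ℓ (∑ j, NN A * (A j * dg lam) * (A j)ᴴ) = pn := by
      have : ∀ j, NN A * (A j * dg lam) * (A j)ᴴ = NN A * (dg r * (D j * (D j)ᴴ) * dg r) :=
        fun j => by rw [Matrix.mul_assoc, hAZ]
      rw [Finset.sum_congr rfl fun j _ => this j, ← Finset.mul_sum, ← Finset.sum_mul,
        ← Finset.mul_sum, hNsum]
      have : NN A * (dg r * N * dg r) = dg q * (P * N) * dg r := by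
        simp [hQ, Matrix.mul_assoc, hqr']
      rw [this, hqr2]
    have b3 : trl ℓ (∑ j, A j * dg lam * NN A * (A j)ᴴ) = Y := by
      have : ∀ j, A j * dg lam * NN A * (A j)ᴴ
          = dg r * (D j * (P * dg mu) * (D j)ᴴ) * dg r := fun j => by
        simp [hQ, hAi, Matrix.conjTranspose_mul, dg_conjTranspose, Matrix.mul_assoc, ← hrr, hqr', hrq', hqq']
      rw [Finset.sum_congr rfl fun j _ => this j, ← Finset.sum_mul, ← Finset.mul_sum, hsand, hY2]
    have b4 : trl ℓ (∑ j, ∑ i, (A j)ᴴ * (A i * (A j * dg lam) * (A i)ᴴ)) = pn := by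
      have hcA : ∀ i j, A i * A j = A j * A i := fun i j => by
        have e : ∀ i j, A i * A j = dg r * (D i * D j) * dg q := fun i j => by
          simp [hAi, Matrix.mul_assoc, hqr']
        rw [e, e, hc]
      have : ∀ i j, (A j)ᴴ * (A i * (A j * dg lam) * (A i)ᴴ)
          = (A j)ᴴ * A j * (A i * dg lam * (A i)ᴴ) := fun i j => by
        simp only [Matrix.mul_assoc]
        rw [← Matrix.mul_assoc (A i) (A j), hcA, Matrix.mul_assoc]
      simp only [this, ← Finset.mul_sum]
      rw [← Finset.sum_mul]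
      change trl ℓ (NN A * _) = _
      rw [Finset.sum_congr rfl fun i _ => hAZ i, ← Finset.sum_mul, ← Finset.mul_sum, hNsum]
      have : NN A * (dg r * N * dg r) = dg q * (P * N) * dg r := by
        simp [hQ, Matrix.mul_assoc, hqr']
      rw [this, hqr2]
    have b5 : trl ℓ (∑ j, (A j)ᴴ * (NN A * (A j * dg lam))) = dpd := by
      have : ∀ j, (A j)ᴴ * (NN A * (A j * dg lam)) = dg q * ((D j)ᴴ * P * D j) * dg r :=
        fun j => by simp [hQ, hAi, Matrix.conjTranspose_mul, dg_conjTranspose, Matrix.mul_assoc, ← hrr, hqr', hrq']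
      rw [Finset.sum_congr rfl fun j _ => this j, ← Finset.sum_mul, ← Finset.mul_sum, hqr2]
    have b6 : trl ℓ (∑ j, (A j)ᴴ * (A j * dg lam * NN A)) = qqv := by
      have : NN A * (dg lam * NN A) = dg q * (P * P) * dg q := by
        simp [hQ, Matrix.mul_assoc, ← hrr, hqr', hrq']
      rw [Finset.sum_congr rfl fun j _ => by
        rw [Matrix.mul_assoc (A j), ← Matrix.mul_assoc (A j)ᴴ], ← Finset.sum_mul]
      change trl ℓ (NN A * _) = _
      rw [this, hqq2]
    rw [Finset.sum_sub_distrib, ← trl_sum, ← trl_sum]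
    simp only [LL, Matrix.mul_sub, Matrix.sub_mul, Matrix.mul_smul, Matrix.smul_mul,
      Matrix.mul_add, Matrix.add_mul, Finset.sum_sub_distrib, ← Finset.smul_sum,
      Finset.sum_add_distrib, Finset.sum_mul, Finset.mul_sum, trl_sub, trl_half, trl_add]
    rw [b1, b2, b3, b4, b5, b6]
    ring
  -- the Gram side
  have hG2 : trl ℓ (Lg D (Lg D (dg lam))) = dpd - 2 * pn + 1 / 2 * n2 + 1 / 2 * nzn := by
    have g1 : trl ℓ (∑ i, (D i)ᴴ * (N * dg lam) * D i) = pn := by
      have : ∀ i, (D i)ᴴ * (N * dg lam) * D i = N * ((D i)ᴴ * dg lam * D i) := fun i => by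
        rw [← Matrix.mul_assoc, hDNH]; simp [Matrix.mul_assoc]
      rw [Finset.sum_congr rfl fun i _ => this i, ← Finset.mul_sum, hpn2]
    have g2 : trl ℓ (∑ i, (D i)ᴴ * (dg lam * N) * D i) = pn := by
      have : ∀ i, (D i)ᴴ * (dg lam * N) * D i = (D i)ᴴ * dg lam * D i * N := fun i => by
        simp only [Matrix.mul_assoc]; rw [← hDN i]
      rw [Finset.sum_congr rfl fun i _ => this i, ← Finset.sum_mul]
    have g3 : trl ℓ (N * (N * dg lam)) = n2 := by
      rw [← Matrix.mul_assoc, trl_dg_right]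
    have g4 : trl ℓ (dg lam * N * N) = n2 := by
      rw [Matrix.mul_assoc, trl_dg_left]
    have g5 : trl ℓ (N * (dg lam * N)) = nzn := by rw [hnzn, Matrix.mul_assoc]
    rw [hMg]
    simp only [Lg, LL, hNn, Matrix.conjTranspose_conjTranspose, Matrix.mul_sub, Matrix.sub_mul,
      Matrix.mul_smul, Matrix.smul_mul, Matrix.mul_add, Matrix.add_mul, Finset.sum_sub_distrib,
      ← Finset.smul_sum, Finset.sum_add_distrib, trl_sub, trl_half, trl_add, smul_add, smul_sub]
    rw [g1, g2, g3, g4, g5, ← hdpd, hpn2, ← hnzn]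
    ring
  -- the divided-difference sums
  have hdd : (∑ k, ∑ m, ddl (lam k) (lam m) * Complex.normSq (LL A (dg lam) k m))
      = (∑ k, ∑ m, ddl (lam k) (lam m) * Complex.normSq (Lg D (dg lam) k m))
        - 1 / 2 * (n2 - nzn) + 1 / 2 * (pzp - qqv) := by
    have e1 : ∀ k m, ddl (lam k) (lam m) * Complex.normSq (LL A (dg lam) k m)
        = ddl (lam k) (lam m) * Complex.normSq (Lg D (dg lam) k m)
          - 1 / 4 * (lam k - lam m) * (ℓ k - ℓ m)
            * (Complex.normSq (N k m) - Complex.normSq (P k m) / (lam k * lam m)) := by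
      intro k m
      rw [hM, hMg]
      have c1 : (dg r * N * dg r - (1 / 2 : ℂ) • (dg q * P * dg r + dg r * P * dg q)) k m
          = ((√(lam k) * √(lam m) : ℝ) : ℂ) * N k m
            - ((1 / 2 * (√(lam m) / √(lam k) + √(lam k) / √(lam m)) : ℝ) : ℂ) * P k m := by
        simp [dg, hr, hq, diagonal_mul, mul_diagonal, div_eq_mul_inv]
        ring
      have c2 : (P - (1 / 2 : ℂ) • (N * dg lam + dg lam * N)) k m
          = P k m - ((1 / 2 * (lam k + lam m) : ℝ) : ℂ) * N k m := by
        simp [dg, diagonal_mul, mul_diagonal]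
        ring
      rw [c1, c2, normSq_dd (N k m) (P k m) (hlam k) (hlam m)]
    simp only [e1, Finset.sum_sub_distrib]
    have symN : ∀ k m, Complex.normSq (N m k) = Complex.normSq (N k m) := fun k m => by
      have h : N m k = star (N k m) := by rw [← Matrix.conjTranspose_apply, hNH]
      rw [h, Complex.star_def, Complex.normSq_conj]
    have symP : ∀ k m, Complex.normSq (P m k) = Complex.normSq (P k m) := fun k m => by
      have h : P m k = star (P k m) := by rw [← Matrix.conjTranspose_apply, hPH]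
      rw [h, Complex.star_def, Complex.normSq_conj]
    have f1 : n2 = ∑ k, ∑ m, lam k * ℓ k * Complex.normSq (N k m) := by
      have := trl_sandwich (fun k => ℓ k * lam k) (fun _ => 1) hNH
      rw [dg_one, Matrix.mul_one] at this
      rw [hn2, this]
      exact Finset.sum_congr rfl fun k _ => Finset.sum_congr rfl fun m _ => by ring
    have f2 : nzn = ∑ k, ∑ m, ℓ k * lam m * Complex.normSq (N k m) := trl_sandwich ℓ lam hNH
    have f3 : pzp = ∑ k, ∑ m, ℓ k * mu m * Complex.normSq (P k m) := trl_sandwich ℓ mu hPH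
    have f4 : qqv = ∑ k, ∑ m, ℓ k * mu k * Complex.normSq (P k m) := by
      have := trl_sandwich (fun k => ℓ k * mu k) (fun _ => 1) hPH
      rw [dg_one, Matrix.mul_one] at this
      rw [hqqv, this]
      exact Finset.sum_congr rfl fun k _ => Finset.sum_congr rfl fun m _ => by ring
    have swap : ∀ F : ι → ι → ℝ, ∑ k, ∑ m, F k m = ∑ k, ∑ m, (F k m + F m k) / 2 := fun F => by
      simp only [add_div, Finset.sum_add_distrib]
      rw [show (∑ x, ∑ x_1, F x_1 x / 2) = ∑ x, ∑ x_1, F x x_1 / 2 from Finset.sum_comm]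
      simp only [← Finset.sum_add_distrib, add_halves]
    rw [f1, f2, f3, f4, swap (fun k m => lam k * ℓ k * _), swap (fun k m => ℓ k * lam m * _),
      swap (fun k m => ℓ k * mu m * _), swap (fun k m => ℓ k * mu k * _)]
    simp only [symN, symP, ← Finset.sum_sub_distrib, Finset.mul_sum, ← Finset.sum_add_distrib,
      sub_add]
    refine Finset.sum_congr rfl fun k _ => Finset.sum_congr rfl fun m _ => ?_
    simp only [hmu]
    field_simp [(hlam k).ne', (hlam m).ne']
    ring
  rw [hdd, hLL, hBh, hG2]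
  ring

end Vale.Agent.P369Cl
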