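/-
P369 (entropy photon-number inequality), classical inputs: the scalar certificate.
For `p > 1` the weights `ww`, `th = 1 - ww` turn the mixture of the two static bounds into an exact
tangent line.
-/
import Mathlib

open Filter Topology Real

noncomputable section

namespace Vale.Agent.P369Cl

/-- Primitive of `1/((1+s)(p+s)^2)` vanishing at infinity. -/
def Mf (p s : ℝ) : ℝ := (log (1 + s) - log (p + s)) / (p - 1) ^ 2 + 1 / ((p - 1) * (p + s))

/-- `Ip p = ∫₀^∞ ds/((1+s)(p+s)^2)`. -/
def Ip (p : ℝ) : ℝ := -Mf p 0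

/-- The multiplier. -/
def Bp (p : ℝ) : ℝ := 1 / (p ^ 2 * Ip p)

/-- The constant of the tangent line. -/
def Jp (p : ℝ) : ℝ := 1 / p - Ip p

def hh (p s : ℝ) : ℝ := -Bp p * Mf p s

/-- Weight of the Cauchy-Schwarz bound. -/
def ww (p s : ℝ) : ℝ := (p + s) ^ 2 * hh p s

/-- Weight of the vacuum bound. -/
def th (p s : ℝ) : ℝ := 1 - ww p s

/-- Primitive of `hh`. -/
def HH (p s : ℝ) : ℝ := s * hh p s + Bp p * (-1 / (p + s) - Mf p s)

/-- Primitive attached to one transition of ratio `y`. -/
def tf (p y s : ℝ) : ℝ :=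
  th p s * (y - 1) / (y + s) - Bp p * (log (1 + s) - log (y + s))

variable {p : ℝ}

lemma hasDerivAt_Mf (hp : 1 < p) {s : ℝ} (hs : 0 ≤ s) :
    HasDerivAt (Mf p) (1 / ((1 + s) * (p + s) ^ 2)) s := by
  have h1 : (1 : ℝ) + s ≠ 0 := by linarith
  have h2 : p + s ≠ 0 := by linarith
  have h3 : p - 1 ≠ 0 := by linarith
  have a := ((hasDerivAt_id s).const_add (1 : ℝ)).log h1
  have b := ((hasDerivAt_id s).const_add p).log h2
  have c := (((hasDerivAt_id s).const_add p).inv h2).const_mul (1 / (p - 1))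
  have := (((a.sub b).div_const ((p - 1) ^ 2)).add c)
  have e : Mf p = fun x => (log (1 + x) - log (p + x)) / (p - 1) ^ 2 + 1 / (p - 1) * (p + x)⁻¹ := by
    funext x; unfold Mf; rw [← one_div (p + x), div_mul_div_comm, mul_one]
  rw [e]
  refine this.congr_deriv ?_
  simp only [id_eq]
  field_simp
  ring

lemma Mf_neg (hp : 1 < p) {s : ℝ} (hs : 0 ≤ s) : Mf p s < 0 := by
  have hps : 0 < p + s := by linarith
  have hp1 : 0 < p - 1 := by linarith
  have hx : 0 < (1 + s) / (p + s) := by positivity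
  have hne : (1 + s) / (p + s) ≠ 1 := by
    rw [ne_eq, div_eq_one_iff_eq hps.ne']; intro h; linarith
  have hl := log_lt_sub_one_of_pos hx hne
  rw [log_div (by linarith) hps.ne'] at hl
  have he : (1 + s) / (p + s) - 1 = -(p - 1) / (p + s) := by field_simp; ring
  rw [he] at hl
  have : Mf p s < -(p - 1) / (p + s) / (p - 1) ^ 2 + 1 / ((p - 1) * (p + s)) := by
    unfold Mf
    have := div_lt_div_of_pos_right hl (by positivity : 0 < (p - 1) ^ 2)
    linarith
  refine lt_of_lt_of_eq this ?_
  field_simp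
  ring

lemma Ip_pos (hp : 1 < p) : 0 < Ip p := by
  have := Mf_neg hp (le_refl 0); unfold Ip; linarith

lemma Bp_pos (hp : 1 < p) : 0 < Bp p := by
  have := Ip_pos hp
  unfold Bp; positivity

lemma hh_nonneg (hp : 1 < p) {s : ℝ} (hs : 0 ≤ s) : 0 ≤ hh p s := by
  unfold hh
  nlinarith [Bp_pos hp, Mf_neg hp hs]

lemma hasDerivAt_hh (hp : 1 < p) {s : ℝ} (hs : 0 ≤ s) :
    HasDerivAt (hh p) (-Bp p * (1 / ((1 + s) * (p + s) ^ 2))) s :=
  (hasDerivAt_Mf hp hs).const_mul (-Bp p)

lemma tendsto_Mf (hp : 1 < p) : Tendsto (Mf p) atTop (𝓝 0) := by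
  have hq : Tendsto (fun s : ℝ => p + s) atTop atTop := tendsto_atTop_add_const_left _ _ tendsto_id
  have hinv : Tendsto (fun s : ℝ => (p + s)⁻¹) atTop (𝓝 0) := hq.inv_tendsto_atTop
  have hr : Tendsto (fun s : ℝ => (1 + s) / (p + s)) atTop (𝓝 1) := by
    have : Tendsto (fun s : ℝ => 1 - (p - 1) * (p + s)⁻¹) atTop (𝓝 (1 - (p - 1) * 0)) :=
      (hinv.const_mul _).const_sub 1
    rw [mul_zero, sub_zero] at this
    refine this.congr' ?_
    filter_upwards [eventually_ge_atTop 0] with s hs
    have : p + s ≠ 0 := by linarith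
    field_simp
    ring
  have hl : Tendsto (fun s : ℝ => log (1 + s) - log (p + s)) atTop (𝓝 0) := by
    have := ((continuousAt_log one_ne_zero).tendsto).comp hr
    rw [log_one] at this
    refine this.congr' ?_
    filter_upwards [eventually_ge_atTop 0] with s hs
    simp only [Function.comp_apply]
    rw [log_div (by linarith) (by linarith)]
  have := (hl.div_const ((p - 1) ^ 2)).add (hinv.const_mul (1 / (p - 1)))
  simp only [zero_div, mul_zero, add_zero] at this
  refine this.congr fun s => ?_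
  unfold Mf; rw [← one_div (p + s), div_mul_div_comm, mul_one]

lemma tendsto_hh (hp : 1 < p) : Tendsto (hh p) atTop (𝓝 0) := by
  have := (tendsto_Mf hp).const_mul (-Bp p)
  rw [mul_zero] at this; exact this

lemma hh_le (hp : 1 < p) {s : ℝ} (hs : 0 ≤ s) : hh p s ≤ 1 / (p + s) ^ 2 := by
  set k : ℝ → ℝ := fun x => 1 / (p + x) ^ 2 - hh p x with hk
  have hd : ∀ x, 0 ≤ x → HasDerivAt k
      ((Bp p * (p + x) - 2 * (1 + x)) / ((1 + x) * (p + x) ^ 3)) x := by
    intro x hx
    have h2 : p + x ≠ 0 := by linarith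
    have h1 : (1 : ℝ) + x ≠ 0 := by linarith
    have e : k = fun y => ((p + y) ^ 2)⁻¹ - hh p y := by funext y; simp [hk, one_div]
    rw [e]
    refine ((((hasDerivAt_id x).const_add p).pow 2).inv (pow_ne_zero 2 h2)
      |>.sub (hasDerivAt_hh hp hx)).congr_deriv ?_
    simp only [id_eq, Nat.cast_ofNat, Pi.pow_apply]
    field_simp
    ring
  have hk0 : k 0 = 0 := by
    have := Ip_pos hp
    simp only [hk, hh]
    rw [show Mf p 0 = -Ip p by simp [Ip]]
    unfold Bp
    field_simp
    ring
  have hcont : ContinuousOn k (Set.Ici 0) := fun x hx => (hd x hx).continuousAt.continuousWithinAt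
  suffices 0 ≤ k s by simp only [hk] at this; linarith
  by_cases hB : 2 * (1 + s) ≤ Bp p * (p + s)
  · have hmono : MonotoneOn k (Set.Icc 0 s) := by
      refine monotoneOn_of_deriv_nonneg (convex_Icc 0 s) (hcont.mono Set.Icc_subset_Ici_self)
        (fun x hx => ?_) fun x hx => ?_
      all_goals rw [interior_Icc] at hx
      · exact (hd x hx.1.le).differentiableAt.differentiableWithinAt
      · rw [(hd x hx.1.le).deriv]
        have hpx : 0 < p + x := by linarith [hx.1]
        have hx1 : 0 < 1 + x := by linarith [hx.1]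
        refine div_nonneg ?_ (by positivity)
        by_cases hB2 : 2 ≤ Bp p
        · nlinarith [hx.1]
        · nlinarith [hx.2]
    have := hmono (Set.left_mem_Icc.2 hs) (Set.right_mem_Icc.2 hs) hs
    linarith
  · push Not at hB
    have hB2 : Bp p < 2 := by
      by_contra hc
      push Not at hc
      nlinarith
    have hanti : AntitoneOn k (Set.Ici s) := by
      refine antitoneOn_of_deriv_nonpos (convex_Ici s)
        (hcont.mono (Set.Ici_subset_Ici.2 hs)) (fun x hx => ?_) fun x hx => ?_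
      all_goals rw [interior_Ici] at hx
      · exact (hd x (hs.trans hx.le)).differentiableAt.differentiableWithinAt
      · have hx0 : 0 ≤ x := hs.trans hx.le
        rw [(hd x hx0).deriv]
        refine div_nonpos_of_nonpos_of_nonneg ?_ ?_
        · have : s ≤ x := hx.le
          nlinarith
        · have : 0 < p + x := by linarith
          positivity
    have hlim : Tendsto k atTop (𝓝 0) := by
      have h1 : Tendsto (fun x : ℝ => ((p + x) ^ 2)⁻¹) atTop (𝓝 0) :=
        ((tendsto_pow_atTop two_ne_zero).comp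
          (tendsto_atTop_add_const_left _ p tendsto_id)).inv_tendsto_atTop
      have := h1.sub (tendsto_hh hp)
      rw [sub_zero] at this
      exact this.congr fun x => by simp [hk, one_div]
    refine le_of_tendsto' (b := k s) (hlim.comp (tendsto_atTop_add_const_left _ s
      (tendsto_natCast_atTop_atTop (R := ℝ)))) fun n => ?_
    have hn : (0 : ℝ) ≤ n := Nat.cast_nonneg n
    exact hanti (Set.self_mem_Ici) (by simp [hn]) (by linarith)

lemma ww_nonneg (hp : 1 < p) {s : ℝ} (hs : 0 ≤ s) : 0 ≤ ww p s :=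
  mul_nonneg (sq_nonneg _) (hh_nonneg hp hs)

lemma th_nonneg (hp : 1 < p) {s : ℝ} (hs : 0 ≤ s) : 0 ≤ th p s := by
  have h2 : 0 < p + s := by linarith
  have := mul_le_mul_of_nonneg_left (hh_le hp hs) (sq_nonneg (p + s))
  rw [mul_one_div_cancel (by positivity)] at this
  unfold th ww; linarith

lemma th_le_one (hp : 1 < p) {s : ℝ} (hs : 0 ≤ s) : th p s ≤ 1 := by
  have := ww_nonneg hp hs; unfold th; linarith

lemma th_zero (hp : 1 < p) : th p 0 = 0 := by
  have := Ip_pos hp
  unfold th ww hh
  rw [show Mf p 0 = -Ip p by simp [Ip], add_zero]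
  unfold Bp
  field_simp
  ring

lemma hasDerivAt_th (hp : 1 < p) {s : ℝ} (hs : 0 ≤ s) :
    HasDerivAt (th p) (Bp p / (1 + s) - 2 * ww p s / (p + s)) s := by
  have h1 : (1 : ℝ) + s ≠ 0 := by linarith
  have h2 : p + s ≠ 0 := by linarith
  have h : HasDerivAt (ww p)
      ((2 : ℕ) * (p + s) ^ (2 - 1) * 1 * hh p s
        + (p + s) ^ 2 * (-Bp p * (1 / ((1 + s) * (p + s) ^ 2)))) s :=
    (((hasDerivAt_id s).const_add p).pow 2).mul (hasDerivAt_hh hp hs)
  refine (h.const_sub 1).congr_deriv ?_
  unfold ww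
  field_simp
  ring

lemma hasDerivAt_HH (hp : 1 < p) {s : ℝ} (hs : 0 ≤ s) : HasDerivAt (HH p) (hh p s) s := by
  have h1 : (1 : ℝ) + s ≠ 0 := by linarith
  have h2 : p + s ≠ 0 := by linarith
  have h := ((hasDerivAt_id s).mul (hasDerivAt_hh hp hs)).add
    ((((hasDerivAt_const s (-1 : ℝ)).div ((hasDerivAt_id s).const_add p) h2).sub
      (hasDerivAt_Mf hp hs)).const_mul (Bp p))
  refine h.congr_deriv ?_
  simp only [id_eq]
  field_simp
  ring

lemma HH_zero : HH p 0 = -(Bp p * Jp p) := by
  simp only [HH, Jp, Ip]; ring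

lemma tendsto_HH (hp : 1 < p) : Tendsto (HH p) atTop (𝓝 0) := by
  have hq : Tendsto (fun s : ℝ => p + s) atTop atTop := tendsto_atTop_add_const_left _ _ tendsto_id
  have hinv : Tendsto (fun s : ℝ => -1 / (p + s)) atTop (𝓝 0) := hq.const_div_atTop (-1)
  have hsh : Tendsto (fun s : ℝ => s * hh p s) atTop (𝓝 0) := by
    refine squeeze_zero' ?_ ?_ hq.inv_tendsto_atTop
    · filter_upwards [eventually_ge_atTop 0] with s hs using mul_nonneg hs (hh_nonneg hp hs)
    · filter_upwards [eventually_ge_atTop 0] with s hs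
      have h2 : 0 < p + s := by linarith
      calc s * hh p s ≤ (p + s) * (1 / (p + s) ^ 2) :=
            mul_le_mul (by linarith) (hh_le hp hs) (hh_nonneg hp hs) h2.le
        _ = (p + s)⁻¹ := by field_simp
  have := hsh.add ((hinv.sub (tendsto_Mf hp)).const_mul (Bp p))
  simp only [sub_zero, mul_zero, add_zero] at this
  exact this

lemma hasDerivAt_tf (hp : 1 < p) {y s : ℝ} (hy : 0 < y) (hs : 0 ≤ s) :
    HasDerivAt (tf p y)
      (-(th p s * ((y - 1) / (y + s) ^ 2) + 2 * (ww p s / (p + s)) * ((y - 1) / (y + s)))) s := by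
  have h1 : (1 : ℝ) + s ≠ 0 := by linarith
  have h2 : p + s ≠ 0 := by linarith
  have h3 : y + s ≠ 0 := by linarith
  have h := (((hasDerivAt_th hp hs).mul_const (y - 1)).div ((hasDerivAt_id s).const_add y) h3).sub
    ((((hasDerivAt_id s).const_add (1 : ℝ)).log h1 |>.sub
      (((hasDerivAt_id s).const_add y).log h3)).const_mul (Bp p))
  refine h.congr_deriv ?_
  simp only [id_eq]
  field_simp
  ring

lemma tf_zero (hp : 1 < p) (y : ℝ) : tf p y 0 = Bp p * log y := by
  simp [tf, th_zero hp]

lemma tendsto_tf (hp : 1 < p) {y : ℝ} (hy : 0 < y) : Tendsto (tf p y) atTop (𝓝 0) := by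
  have hq : Tendsto (fun s : ℝ => y + s) atTop atTop := tendsto_atTop_add_const_left _ _ tendsto_id
  have ha : Tendsto (fun s : ℝ => th p s * (y - 1) / (y + s)) atTop (𝓝 0) := by
    refine squeeze_zero_norm' ?_ (hq.const_div_atTop |y - 1|)
    filter_upwards [eventually_ge_atTop 0] with s hs
    rw [norm_div, Real.norm_eq_abs, Real.norm_eq_abs, abs_mul,
      abs_of_pos (by linarith : 0 < y + s), abs_of_nonneg (th_nonneg hp hs)]
    exact div_le_div_of_nonneg_right
      (mul_le_of_le_one_left (abs_nonneg _) (th_le_one hp hs)) (by linarith)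
  have hl : Tendsto (fun s : ℝ => log (1 + s) - log (y + s)) atTop (𝓝 0) := by
    have hr : Tendsto (fun s : ℝ => 1 - (y - 1) / (y + s)) atTop (𝓝 1) := by
      simpa using (hq.const_div_atTop (y - 1)).const_sub 1
    have := ((continuousAt_log one_ne_zero).tendsto).comp hr
    rw [log_one] at this
    refine this.congr' ?_
    filter_upwards [eventually_ge_atTop 0] with s hs
    simp only [Function.comp_apply]
    rw [← log_div (by linarith) (by linarith)]
    congr 1
    have : y + s ≠ 0 := by linarith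
    field_simp
    ring
  have := ha.sub (hl.const_mul (Bp p))
  rw [mul_zero, sub_zero] at this
  exact this

/-- The tangent identity at the thermal point. -/
lemma tangent (hp : 1 < p) : Bp p * (log p / (p - 1) - Jp p) = 1 / p := by
  have hI := Ip_pos hp
  have h3 : p - 1 ≠ 0 := by linarith
  have e : log p / (p - 1) - Jp p = p * Ip p := by
    unfold Jp Ip Mf
    simp only [add_zero, log_one]
    field_simp
    ring
  rw [e]; unfold Bp; field_simp

/-- Thermal one-mode entropy. -/
def gg (t : ℝ) : ℝ := negMulLog t - negMulLog (t + 1)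

/-- Entropy loss rate of the thermal family. -/
def ff (t : ℝ) : ℝ := t * log (1 + 1 / t)

lemma hasDerivAt_gg {t : ℝ} (ht : 0 < t) : HasDerivAt gg (log (1 + 1 / t)) t := by
  have h := (hasDerivAt_negMulLog ht.ne').sub
    ((hasDerivAt_negMulLog (by linarith : t + 1 ≠ 0)).comp t ((hasDerivAt_id t).add_const 1))
  refine h.congr_deriv ?_
  rw [show (1 : ℝ) + 1 / t = (t + 1) / t by field_simp, log_div (by linarith) ht.ne']
  ring

lemma hasDerivAt_ff {t : ℝ} (ht : 0 < t) :
    HasDerivAt ff (log (1 + 1 / t) - 1 / (t + 1)) t := by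
  have h1 : (1 : ℝ) + 1 / t ≠ 0 := by positivity
  have h2 : HasDerivAt (fun x : ℝ => 1 + 1 / x) (-(t ^ 2)⁻¹) t := by
    simpa [one_div] using (hasDerivAt_inv ht.ne').const_add 1
  refine ((hasDerivAt_id t).mul (h2.log h1)).congr_deriv ?_
  simp only [id_eq]
  field_simp
  ring

/-- The tangent line in the variable `t`: `p = 1 + 1/t`. -/
lemma tangent_ff {t : ℝ} (ht : 0 < t) :
    Bp (1 + 1 / t) * (ff t - Jp (1 + 1 / t)) = t / (t + 1) := by
  have hp : (1 : ℝ) < 1 + 1 / t := by simp [ht]
  have h := tangent hp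
  rw [show ff t = log (1 + 1 / t) / (1 + 1 / t - 1) by
    unfold ff; rw [add_sub_cancel_left, div_div_eq_mul_div, div_one, mul_comm], h]
  field_simp

end Vale.Agent.P369Cl
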