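/-
P369, classical inputs: the static inequality `-η² S'' ≥ B R - n B J`.
-/
import Vale.Agent.P369Cl.Scalar
import Vale.Agent.P369Cl.Conv

open Matrix Finset Filter Topology
open scoped ComplexConjugate

noncomputable section

namespace Vale.Agent.P369Cl

/-- Primitive of `1/((s+a)(s+b))`. -/
def pp (a b s : ℝ) : ℝ :=
  if a = b then -1 / (s + a) else (Real.log (s + a) - Real.log (s + b)) / (b - a)

/-- Primitive of `s/((s+a)(s+b))`. -/
def qq (a b s : ℝ) : ℝ := Real.log (s + a) - b * pp a b s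

lemma hasDerivAt_pp {a b s : ℝ} (ha : 0 < a) (hb : 0 < b) (hs : 0 ≤ s) :
    HasDerivAt (pp a b) (1 / ((s + a) * (s + b))) s := by
  have h1 : s + a ≠ 0 := by linarith
  have h2 : s + b ≠ 0 := by linarith
  by_cases h : a = b
  · subst h
    have e : pp a a = fun x => -1 / (x + a) := by funext x; simp [pp]
    rw [e]
    refine ((hasDerivAt_const s (-1 : ℝ)).div ((hasDerivAt_id s).add_const a) h1).congr_deriv ?_
    simp only [id_eq]
    field_simp
    ring
  · have e : pp a b = fun x => (Real.log (x + a) - Real.log (x + b)) / (b - a) := by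
      funext x; simp [pp, h]
    rw [e]
    have h3 : b - a ≠ 0 := sub_ne_zero.2 (Ne.symm h)
    refine (((((hasDerivAt_id s).add_const a).log h1).sub
      (((hasDerivAt_id s).add_const b).log h2)).div_const (b - a)).congr_deriv ?_
    simp only [id_eq]
    field_simp
    ring

lemma hasDerivAt_qq {a b s : ℝ} (ha : 0 < a) (hb : 0 < b) (hs : 0 ≤ s) :
    HasDerivAt (qq a b) (s / ((s + a) * (s + b))) s := by
  have h1 : s + a ≠ 0 := by linarith
  have h2 : s + b ≠ 0 := by linarith
  refine ((((hasDerivAt_id s).add_const a).log h1).sub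
    ((hasDerivAt_pp ha hb hs).const_mul b)).congr_deriv ?_
  simp only [id_eq]
  field_simp
  ring

lemma tendsto_log_shift (a b : ℝ) :
    Tendsto (fun s : ℝ => Real.log (s + a) - Real.log (s + b)) atTop (𝓝 0) := by
  have hr : Tendsto (fun s : ℝ => 1 + (a - b) / (s + b)) atTop (𝓝 1) := by
    simpa using ((tendsto_atTop_add_const_right _ b tendsto_id).const_div_atTop (a - b)).const_add 1
  have := ((Real.continuousAt_log one_ne_zero).tendsto).comp hr
  rw [Real.log_one] at this
  refine this.congr' ?_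
  filter_upwards [eventually_gt_atTop (|a| + |b|)] with s hs
  have h1 : 0 < s + a := by linarith [neg_abs_le a, abs_nonneg b]
  have h2 : 0 < s + b := by linarith [neg_abs_le b, abs_nonneg a]
  simp only [Function.comp_apply]
  rw [← Real.log_div h1.ne' h2.ne']
  congr 1
  field_simp
  ring

lemma tendsto_pp (a b : ℝ) : Tendsto (pp a b) atTop (𝓝 0) := by
  by_cases h : a = b
  · subst h
    have e : pp a a = fun x => -1 / (x + a) := by funext x; simp [pp]
    rw [e]
    exact (tendsto_atTop_add_const_right _ a tendsto_id).const_div_atTop (-1)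
  · have e : pp a b = fun x => (Real.log (x + a) - Real.log (x + b)) / (b - a) := by
      funext x; simp [pp, h]
    rw [e]
    simpa using (tendsto_log_shift a b).div_const (b - a)

lemma tendsto_qq (a b : ℝ) :
    Tendsto (fun s => qq a b s - Real.log s) atTop (𝓝 0) := by
  have h1 := tendsto_log_shift a 0
  have := h1.sub ((tendsto_pp a b).const_mul b)
  simp only [add_zero, mul_zero, sub_zero] at this
  exact this.congr fun s => by simp [qq]; ring

lemma pp_zero (a b : ℝ) : pp a b 0 = -ddl a b := by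
  by_cases h : a = b
  · subst h; simp [pp, ddl, neg_div]
  · simp only [pp, ddl, if_neg h, zero_add]
    rw [← neg_sub a b, div_neg]

lemma qq_zero (a b : ℝ) : qq a b 0 = Real.log a + b * ddl a b := by
  rw [qq, pp_zero, zero_add]; ring

lemma ddl_div (a b : ℝ) {c : ℝ} (ha : 0 < a) (hb : 0 < b) (hc : 0 < c) :
    ddl (a / c) (b / c) = c * ddl a b := by
  by_cases h : a = b
  · subst h; simp [ddl]; field_simp
  · have h' : a / c ≠ b / c := fun e => h ((div_left_inj' hc.ne').1 e)
    simp only [ddl, if_neg h, if_neg h']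
    rw [Real.log_div ha.ne' hc.ne', Real.log_div hb.ne' hc.ne']
    field_simp [sub_ne_zero.2 h]
    ring

lemma qq_zero_scaled {a b c : ℝ} (ha : 0 < a) (hb : 0 < b) (hc : 0 < c) :
    qq (c / a) (c / b) 0 = Real.log c - 1 / 2 * (Real.log a + Real.log b)
      + 1 / 2 * (a + b) * ddl a b := by
  rw [qq_zero, Real.log_div hc.ne' ha.ne']
  by_cases h : a = b
  · subst h; simp [ddl]; field_simp; ring
  · have h' : c / a ≠ c / b := fun e => h (by field_simp at e; exact e.symm)
    simp only [ddl, if_neg h, if_neg h']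
    rw [Real.log_div hc.ne' ha.ne', Real.log_div hc.ne' hb.ne']
    have h1 := sub_ne_zero.2 h
    have h2 : c / a - c / b ≠ 0 := sub_ne_zero.2 h'
    have h3 : b - a ≠ 0 := sub_ne_zero.2 (Ne.symm h)
    rw [show c / a - c / b = c * (b - a) / (a * b) by field_simp]
    field_simp
    ring

variable {ι : Type*} [Fintype ι] [DecidableEq ι] {n : ℕ}

/-- The resolvent family `(Δ + s)⁻¹ A`. -/
def Gs (lam : ι → ℝ) (A : Fin n → Matrix ι ι ℂ) (s : ℝ) (j : Fin n) : Matrix ι ι ℂ :=
  of fun k l => A j k l * ((lam l / (lam k + s * lam l) : ℝ) : ℂ)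

/-- The averaged commutator norm. -/
def Ec (lam : ι → ℝ) (A G : Fin n → Matrix ι ι ℂ) (s : ℝ) : ℝ :=
  (∑ i, ∑ j, (((A i * (G j)ᴴ - (G j)ᴴ * A i) * dg lam * (G j * (A i)ᴴ - (A i)ᴴ * G j)).trace
    + (s : ℂ) * ((A i * G j - G j * A i) * dg lam
        * ((G j)ᴴ * (A i)ᴴ - (A i)ᴴ * (G j)ᴴ)).trace)).re

/-- The vacuum inequality, as a hypothesis on the annihilators. -/
def VacIneq (lam : ι → ℝ) (A : Fin n → Matrix ι ι ℂ) : Prop :=
  ∀ H : Fin n → Matrix ι ι ℂ,
    ∑ j, ((H j * (H j)ᴴ * dg lam).trace.re - ((H j)ᴴ * H j * dg lam).trace.re)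
      ≤ ∑ i, ∑ j,
        ((A i * (H j)ᴴ - (H j)ᴴ * A i) * dg lam * (H j * (A i)ᴴ - (A i)ᴴ * H j)).trace.re

lemma re_trace_frob (lam : ι → ℝ) (X : Matrix ι ι ℂ) :
    (X * dg lam * Xᴴ).trace.re = ∑ k, ∑ l, lam l * Complex.normSq (X k l) := by
  simp only [Matrix.trace, Matrix.diag, Complex.re_sum]
  refine Finset.sum_congr rfl fun k _ => ?_
  rw [Matrix.mul_apply, Complex.re_sum]
  refine Finset.sum_congr rfl fun l _ => ?_
  rw [dg, mul_diagonal, Matrix.conjTranspose_apply, Complex.normSq_apply]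
  simp
  ring

lemma re_trace_frob_nonneg {lam : ι → ℝ} (hlam : ∀ k, 0 ≤ lam k) (X : Matrix ι ι ℂ) :
    0 ≤ (X * dg lam * Xᴴ).trace.re := by
  rw [re_trace_frob]
  exact Finset.sum_nonneg fun k _ => Finset.sum_nonneg fun l _ =>
    mul_nonneg (hlam l) (Complex.normSq_nonneg _)

lemma cauchy_schwarz {lam : ι → ℝ} (hlam : ∀ k, 0 ≤ lam k) (hsum : ∑ k, lam k = 1) (φ : ℝ)
    (X : Matrix ι ι ℂ) : 2 * φ * (X * dg lam).trace.re - φ ^ 2 ≤ (X * dg lam * Xᴴ).trace.re := by
  have h := re_trace_frob_nonneg hlam (X - (φ : ℂ) • (1 : Matrix ι ι ℂ))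
  have e1 : (dg lam * Xᴴ).trace.re = (X * dg lam).trace.re := by
    rw [show dg lam * Xᴴ = (X * dg lam)ᴴ by rw [Matrix.conjTranspose_mul, dg_conjTranspose],
      Matrix.trace_conjTranspose]
    simp
  have e2 : (dg lam).trace = 1 := by
    rw [dg, Matrix.trace_diagonal, ← Complex.ofReal_sum, hsum, Complex.ofReal_one]
  have e : ((X - (φ : ℂ) • (1 : Matrix ι ι ℂ)) * dg lam * (X - (φ : ℂ) • (1 : Matrix ι ι ℂ))ᴴ).trace.re
      = (X * dg lam * Xᴴ).trace.re - φ * (X * dg lam).trace.re - φ * (dg lam * Xᴴ).trace.re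
        + φ ^ 2 := by
    simp only [Matrix.conjTranspose_sub, Matrix.conjTranspose_smul, Matrix.conjTranspose_one,
      Complex.star_def, Complex.conj_ofReal, Matrix.sub_mul, Matrix.mul_sub, Matrix.smul_mul,
      Matrix.mul_smul, Matrix.one_mul, Matrix.mul_one, Matrix.trace_sub, Matrix.trace_smul,
      smul_eq_mul, e2, smul_smul, Complex.sub_re, Complex.re_ofReal_mul]
    simp
    ring
  rw [e, e1] at h
  linarith

/-- The primitive, as a linear function of its three scalar kernels. -/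
def PhiG (lam : ι → ℝ) (A : Fin n → Matrix ι ι ℂ) (fp fq : ι → ι → ι → ℝ) (fg : ι → ι → ℝ) : ℝ :=
  (∑ k, ∑ m, (∑ j, ∑ l, (A j k l * conj (A j m l) * (fp k l m : ℂ)
      + conj (A j l k) * A j l m * (fq k l m : ℂ))) * LL A (dg lam) m k).re
    - 2 * (∑ j, ∑ k, ∑ l, conj (A j k l) * (fg k l : ℂ) * LL A (A j * dg lam) k l).re

lemma PhiG_shift (lam : ι → ℝ) (A : Fin n → Matrix ι ι ℂ) (fp fq : ι → ι → ι → ℝ) (fg : ι → ι → ℝ)
    (c : ℝ) :
    PhiG lam A fp (fun k l m => fq k l m + c) (fun k l => fg k l + c)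
      = PhiG lam A fp fq fg + c * ((NN A * LL A (dg lam)).trace.re
        - 2 * (∑ j, ((A j)ᴴ * LL A (A j * dg lam)).trace).re) := by
  have h1 : (NN A * LL A (dg lam)).trace = ∑ k, ∑ m, (∑ j, ∑ l, conj (A j l k) * A j l m)
      * LL A (dg lam) m k := by
    simp [Matrix.trace, Matrix.mul_apply, NN, Matrix.sum_apply, Matrix.conjTranspose_apply]
  have h2 : ∑ j, ((A j)ᴴ * LL A (A j * dg lam)).trace
      = ∑ j, ∑ k, ∑ l, conj (A j k l) * LL A (A j * dg lam) k l := by
    refine Finset.sum_congr rfl fun j _ => ?_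
    rw [Matrix.trace, Finset.sum_comm]
    simp [Matrix.mul_apply, Matrix.conjTranspose_apply]
  rw [h1, h2]
  simp only [PhiG, Complex.ofReal_add, mul_add, add_mul, Finset.sum_add_distrib, Complex.add_re,
    mul_sub, Complex.re_sum, Finset.mul_sum, Finset.sum_mul]
  simp only [← Complex.re_ofReal_mul c, mul_comm (c : ℂ), mul_left_comm _ (c : ℂ), mul_assoc,
    Finset.sum_sub_distrib]
  simp only [mul_left_comm c, ← Complex.re_ofReal_mul c, mul_left_comm (c : ℂ),
    mul_comm (c : ℂ), mul_assoc]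
  ring

lemma hasDerivAt_PhiG (lam : ι → ℝ) (A : Fin n → Matrix ι ι ℂ) {fp fq : ι → ι → ι → ℝ → ℝ}
    {fg : ι → ι → ℝ → ℝ} {dp dq : ι → ι → ι → ℝ} {dgg : ι → ι → ℝ} {s : ℝ}
    (hp : ∀ k l m, HasDerivAt (fp k l m) (dp k l m) s)
    (hq : ∀ k l m, HasDerivAt (fq k l m) (dq k l m) s)
    (hg : ∀ k l, HasDerivAt (fg k l) (dgg k l) s) :
    HasDerivAt (fun t => PhiG lam A (fun k l m => fp k l m t) (fun k l m => fq k l m t)
      (fun k l => fg k l t)) (PhiG lam A dp dq dgg) s := by
  unfold PhiG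
  refine HasDerivAt.sub ?_ (HasDerivAt.const_mul 2 ?_)
  · refine Complex.reCLM.hasFDerivAt.comp_hasDerivAt s ?_
    refine HasDerivAt.fun_sum fun k _ => HasDerivAt.fun_sum fun m _ => ?_
    refine HasDerivAt.mul_const (HasDerivAt.fun_sum fun j _ => HasDerivAt.fun_sum fun l _ => ?_) _
    exact ((hp k l m).ofReal_comp.const_mul _).add ((hq k l m).ofReal_comp.const_mul _)
  · refine Complex.reCLM.hasFDerivAt.comp_hasDerivAt s ?_
    refine HasDerivAt.fun_sum fun j _ => HasDerivAt.fun_sum fun k _ =>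
      HasDerivAt.fun_sum fun l _ => ?_
    exact ((hg k l).ofReal_comp.const_mul _).mul_const _

lemma tendsto_PhiG (lam : ι → ℝ) (A : Fin n → Matrix ι ι ℂ) {fp fq : ι → ι → ι → ℝ → ℝ}
    {fg : ι → ι → ℝ → ℝ} {F : Filter ℝ}
    (hp : ∀ k l m, Tendsto (fp k l m) F (𝓝 0)) (hq : ∀ k l m, Tendsto (fq k l m) F (𝓝 0))
    (hg : ∀ k l, Tendsto (fg k l) F (𝓝 0)) :
    Tendsto (fun t => PhiG lam A (fun k l m => fp k l m t) (fun k l m => fq k l m t)
      (fun k l => fg k l t)) F (𝓝 0) := by
  have hz : PhiG lam A (fun _ _ _ => 0) (fun _ _ _ => 0) (fun _ _ => 0) = 0 := by simp [PhiG]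
  rw [← hz]
  have oR : ∀ {f : ℝ → ℝ}, Tendsto f F (𝓝 0) → Tendsto (fun t => (f t : ℂ)) F (𝓝 ((0 : ℝ) : ℂ)) :=
    fun h => (Complex.continuous_ofReal.tendsto 0).comp h
  unfold PhiG
  refine Tendsto.sub ?_ (Tendsto.const_mul 2 ?_)
  · refine (Complex.continuous_re.tendsto _).comp ?_
    refine tendsto_finsetSum _ fun k _ => tendsto_finsetSum _ fun m _ => ?_
    refine Tendsto.mul_const _ (tendsto_finsetSum _ fun j _ => tendsto_finsetSum _ fun l _ => ?_)
    exact ((oR (hp k l m)).const_mul _).add ((oR (hq k l m)).const_mul _)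
  · refine (Complex.continuous_re.tendsto _).comp ?_
    refine tendsto_finsetSum _ fun j _ => tendsto_finsetSum _ fun k _ =>
      tendsto_finsetSum _ fun l _ => ?_
    exact ((oR (hg k l)).const_mul _).mul_const _

/-- The primitive of the averaged commutator norm. -/
def Phi (lam : ι → ℝ) (A : Fin n → Matrix ι ι ℂ) (s : ℝ) : ℝ :=
  PhiG lam A (fun k l m => pp (lam k / lam l) (lam m / lam l) s)
    (fun k l m => qq (lam l / lam k) (lam l / lam m) s)
    (fun k l => Real.log (lam k / lam l + s))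

lemma hasDerivAt_Phi {lam : ι → ℝ} (hlam : ∀ k, 0 < lam k) (A : Fin n → Matrix ι ι ℂ) {s : ℝ}
    (hs : 0 ≤ s) : HasDerivAt (Phi lam A) (Ec lam A (Gs lam A s) s) s := by
  have hy : ∀ k l, 0 < lam k / lam l := fun k l => div_pos (hlam k) (hlam l)
  have h := hasDerivAt_PhiG lam A
    (fp := fun k l m => pp (lam k / lam l) (lam m / lam l))
    (fq := fun k l m => qq (lam l / lam k) (lam l / lam m))
    (fg := fun k l t => Real.log (lam k / lam l + t))
    (fun k l m => hasDerivAt_pp (hy k l) (hy m l) hs)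
    (fun k l m => hasDerivAt_qq (hy l k) (hy l m) hs)
    (fun k l => ((hasDerivAt_id s).const_add (lam k / lam l)).log
      (by have := hy k l; simp only [id_eq]; linarith))
  refine h.congr_deriv ?_
  have h1 : ∀ j, (s : ℂ) • (Gs lam A s j * dg lam) = A j * dg lam - dg lam * Gs lam A s j := by
    intro j
    ext k l
    have : lam k + s * lam l ≠ 0 := by nlinarith [hlam k, hlam l]
    simp [Gs, dg, mul_diagonal, diagonal_mul]
    have e : ((lam k + s * lam l : ℝ) : ℂ) ≠ 0 := by exact_mod_cast this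
    push_cast at e
    field_simp
    ring
  have := static_identity A (Gs lam A s) (dg lam) (dg_conjTranspose lam) s h1
  simp only [Ec]
  rw [this]
  simp only [PhiG, id_eq]
  congr 1
  · congr 1
    rw [Matrix.trace]
    refine Finset.sum_congr rfl fun k _ => ?_
    rw [Matrix.diag_apply, Matrix.mul_apply]
    refine Finset.sum_congr rfl fun m _ => congrArg (· * _) ?_
    rw [Matrix.sum_apply]
    refine Finset.sum_congr rfl fun j _ => ?_
    simp only [Matrix.add_apply, Matrix.smul_apply, Matrix.mul_apply, Matrix.conjTranspose_apply,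
      smul_eq_mul, Finset.mul_sum, ← Finset.sum_add_distrib]
    refine Finset.sum_congr rfl fun l _ => ?_
    have e : ∀ a b, lam b / (lam a + s * lam b) = 1 / (s + lam a / lam b) := fun a b => by
      have := (hlam b).ne'
      field_simp
      ring
    simp only [Gs, Matrix.of_apply, Complex.star_def, map_mul, Complex.conj_ofReal, e]
    push_cast
    field_simp
  · congr 2
    refine Finset.sum_congr rfl fun j _ => ?_
    rw [Matrix.trace, Finset.sum_comm]
    refine Finset.sum_congr rfl fun l _ => ?_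
    rw [Matrix.diag_apply, Matrix.mul_apply]
    refine Finset.sum_congr rfl fun k _ => congrArg (· * _) ?_
    have := (hlam l).ne'
    simp only [Gs, Matrix.conjTranspose_apply, Matrix.of_apply, Complex.star_def, map_mul,
      Complex.conj_ofReal]
    congr 2
    field_simp

lemma coef_zero (lam : ι → ℝ) {A : Fin n → Matrix ι ι ℂ} (hcA : ∀ i j, A i * A j = A j * A i) :
    (NN A * LL A (dg lam)).trace
      - 2 * ∑ j, ((A j)ᴴ * LL A (A j * dg lam)).trace = 0 := by
  set X := ∑ i, A i * dg lam * (A i)ᴴ with hX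
  have a1 : ∑ j, ∑ i, ((A j)ᴴ * (A i * (A j * dg lam) * (A i)ᴴ)).trace
      = (NN A * X).trace := by
    have : ∀ i j, (A j)ᴴ * (A i * (A j * dg lam) * (A i)ᴴ)
        = (A j)ᴴ * A j * (A i * dg lam * (A i)ᴴ) := fun i j => by
      simp only [Matrix.mul_assoc]
      rw [← Matrix.mul_assoc (A i) (A j), hcA, Matrix.mul_assoc]
    simp only [this]
    rw [hX, NN, Finset.sum_mul, Matrix.trace_sum]
    simp only [Finset.mul_sum, Matrix.trace_sum]
  have a2 : ∑ j, ((A j)ᴴ * (NN A * (A j * dg lam))).trace = (NN A * X).trace := by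
    rw [hX, Finset.mul_sum, Matrix.trace_sum]
    refine Finset.sum_congr rfl fun j _ => ?_
    rw [Matrix.trace_mul_comm, Matrix.mul_assoc]
  have a3 : ∑ j, ((A j)ᴴ * (A j * dg lam * NN A)).trace = (NN A * (dg lam * NN A)).trace := by
    rw [← Matrix.trace_sum]
    conv_rhs => enter [1, 1]; unfold NN
    rw [Finset.sum_mul]
    simp only [Matrix.mul_assoc]
  have a4 : (NN A * (NN A * dg lam)).trace = (NN A * (dg lam * NN A)).trace := by
    rw [Matrix.trace_mul_comm, Matrix.mul_assoc]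
  simp only [LL, Matrix.mul_sub, Matrix.mul_smul, Matrix.mul_add, Matrix.trace_sub,
    Matrix.trace_smul, Matrix.trace_add, smul_eq_mul, Finset.sum_sub_distrib, ← Finset.mul_sum,
    Finset.sum_add_distrib]
  rw [← hX, a2, a3, a4]
  simp only [Finset.mul_sum, Matrix.trace_sum] at a1 ⊢
  rw [a1]
  ring

lemma tendsto_Phi (lam : ι → ℝ) {A : Fin n → Matrix ι ι ℂ} (hcA : ∀ i j, A i * A j = A j * A i) :
    Tendsto (Phi lam A) atTop (𝓝 0) := by
  have hcoef := coef_zero lam hcA
  have hc0 : (NN A * LL A (dg lam)).trace.re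
      - 2 * (∑ j, ((A j)ᴴ * LL A (A j * dg lam)).trace).re = 0 := by
    have := congrArg Complex.re hcoef
    simpa using this
  have hl := tendsto_PhiG lam A (F := atTop)
    (fp := fun k l m => pp (lam k / lam l) (lam m / lam l))
    (fq := fun k l m t => qq (lam l / lam k) (lam l / lam m) t - Real.log t)
    (fg := fun k l t => Real.log (lam k / lam l + t) - Real.log t)
    (fun k l m => tendsto_pp _ _) (fun k l m => tendsto_qq _ _)
    (fun k l => (tendsto_log_shift (lam k / lam l) 0).congr fun t => by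
      rw [add_zero, add_comm])
  refine hl.congr fun t => ?_
  rw [← sub_eq_zero, Phi]
  have := PhiG_shift lam A (fun k l m => pp (lam k / lam l) (lam m / lam l) t)
    (fun k l m => qq (lam l / lam k) (lam l / lam m) t - Real.log t)
    (fun k l => Real.log (lam k / lam l + t) - Real.log t) (Real.log t)
  simp only [sub_add_cancel, hc0, mul_zero, add_zero] at this
  rw [this, sub_self]

lemma neg_Phi_zero {lam : ι → ℝ} (hlam : ∀ k, 0 < lam k) (A : Fin n → Matrix ι ι ℂ) :
    -Phi lam A 0 = (∑ k, ∑ m, ddl (lam k) (lam m) * Complex.normSq (LL A (dg lam) k m))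
      - trl (fun k => Real.log (lam k)) (LL A (LL A (dg lam)))
      + 2 * ∑ j, (trl (fun k => Real.log (lam k)) (LL A (A j * dg lam) * (A j)ᴴ)
        - trl (fun k => Real.log (lam k)) ((A j)ᴴ * LL A (A j * dg lam))) := by
  set ℓ : ι → ℝ := fun k => Real.log (lam k) with hℓ
  set M := LL A (dg lam) with hM
  have hMH : Mᴴ = M := by rw [hM, LL_conjTranspose, dg_conjTranspose]
  have w0 : ∀ k m, (∑ j, ∑ l, (A j k l * conj (A j m l)
        * ((pp (lam k / lam l) (lam m / lam l) 0 : ℝ) : ℂ)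
      + conj (A j l k) * A j l m * ((qq (lam l / lam k) (lam l / lam m) 0 : ℝ) : ℂ)))
      = -((ddl (lam k) (lam m) : ℝ) : ℂ) * M k m
        + ((∑ j, (A j)ᴴ * dg ℓ * A j) - (1 / 2 : ℂ) • (dg ℓ * NN A + NN A * dg ℓ)) k m := by
    intro k m
    simp only [hM, LL, NN, Matrix.sub_apply, Matrix.smul_apply, Matrix.add_apply,
      Finset.sum_mul, Finset.mul_sum, Matrix.sum_apply, ← Finset.sum_add_distrib,
      ← Finset.sum_sub_distrib, Finset.smul_sum]
    refine Finset.sum_congr rfl fun j _ => ?_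
    have e1 : ∀ f : ι → ℝ, (A j * dg f * (A j)ᴴ) k m
        = ∑ l, A j k l * (f l : ℂ) * conj (A j m l) := fun f => by
      rw [Matrix.mul_apply]; simp [dg, mul_diagonal]
    have e2 : ∀ f : ι → ℝ, ((A j)ᴴ * dg f * A j) k m
        = ∑ l, conj (A j l k) * (f l : ℂ) * A j l m := fun f => by
      rw [Matrix.mul_apply]; simp [dg, mul_diagonal]
    have e3 : ∀ f : ι → ℝ, (dg f * ((A j)ᴴ * A j)) k m
        = ∑ l, (f k : ℂ) * (conj (A j l k) * A j l m) := fun f => by
      rw [dg, diagonal_mul, Matrix.mul_apply, Finset.mul_sum]; simp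
    have e4 : ∀ f : ι → ℝ, ((A j)ᴴ * A j * dg f) k m
        = ∑ l, conj (A j l k) * A j l m * (f m : ℂ) := fun f => by
      rw [dg, mul_diagonal, Matrix.mul_apply, Finset.sum_mul]; simp
    simp only [e1, e2, e3, e4, smul_eq_mul, Finset.mul_sum, ← Finset.sum_add_distrib,
      ← Finset.sum_sub_distrib]
    refine Finset.sum_congr rfl fun l _ => ?_
    rw [pp_zero, ddl_div _ _ (hlam k) (hlam m) (hlam l),
      qq_zero_scaled (hlam k) (hlam m) (hlam l)]
    simp only [hℓ]
    push_cast
    ring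
  rw [Phi]
  simp only [PhiG, add_zero]
  simp only [w0]
  simp only [add_mul, Finset.sum_add_distrib, Complex.add_re]
  have r1 : (∑ k, ∑ m, -((ddl (lam k) (lam m) : ℝ) : ℂ) * M k m * M m k).re
      = -∑ k, ∑ m, ddl (lam k) (lam m) * Complex.normSq (M k m) := by
    simp only [Complex.re_sum, ← Finset.sum_neg_distrib]
    refine Finset.sum_congr rfl fun k _ => Finset.sum_congr rfl fun m _ => ?_
    have hc' : M m k = conj (M k m) := by
      rw [← Complex.star_def, ← Matrix.conjTranspose_apply, hMH]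
    rw [hc', mul_assoc, Complex.mul_conj]
    simp
  have r2 : (∑ k, ∑ m, ((∑ j, (A j)ᴴ * dg ℓ * A j)
      - (1 / 2 : ℂ) • (dg ℓ * NN A + NN A * dg ℓ)) k m * M m k).re = trl ℓ (LL A M) := by
    have e : ∀ W : Matrix ι ι ℂ, ∑ k, ∑ m, W k m * M m k = (W * M).trace := fun W => by
      simp [Matrix.trace, Matrix.mul_apply]
    have t : ∀ Y, (dg ℓ * Y).trace.re = trl ℓ Y := fun Y => by
      simp [trl, dg, Matrix.trace, diagonal_mul]
    rw [e, ← t]
    congr 1
    simp only [LL, Matrix.sub_mul, Matrix.smul_mul, Matrix.add_mul, Matrix.mul_sub,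
      Matrix.mul_smul, Matrix.mul_add, Finset.sum_mul, Finset.mul_sum, Matrix.trace_sub,
      Matrix.trace_smul, Matrix.trace_add, Matrix.trace_sum]
    congr 1
    · refine Finset.sum_congr rfl fun j _ => ?_
      simp only [Matrix.mul_assoc]
      rw [Matrix.trace_mul_comm]
      simp only [Matrix.mul_assoc]
    · congr 2
      · rw [Matrix.mul_assoc]
      · rw [Matrix.mul_assoc, Matrix.trace_mul_comm, Matrix.mul_assoc]
  have r3 : (∑ j, ∑ k, ∑ l, conj (A j k l) * ((Real.log (lam k / lam l) : ℝ) : ℂ)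
      * LL A (A j * dg lam) k l).re
      = ∑ j, (trl ℓ (LL A (A j * dg lam) * (A j)ᴴ)
        - trl ℓ ((A j)ᴴ * LL A (A j * dg lam))) := by
    rw [Complex.re_sum]
    refine Finset.sum_congr rfl fun j _ => ?_
    simp only [trl, Matrix.mul_apply, Complex.re_sum, Finset.mul_sum]
    rw [Finset.sum_comm (f := fun x i => ℓ x * ((A j)ᴴ x i * _).re)]
    simp only [← Finset.sum_sub_distrib]
    refine Finset.sum_congr rfl fun k _ => Finset.sum_congr rfl fun l _ => ?_
    rw [Real.log_div (hlam k).ne' (hlam l).ne']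
    simp [Matrix.conjTranspose_apply, hℓ]
    ring
  rw [r1, r2, r3]
  ring

lemma rate_eq {lam : ι → ℝ} (hlam : ∀ k, 0 < lam k) (D : Fin n → Matrix ι ι ℂ) :
    -trl (fun k => Real.log (lam k)) (Lg D (dg lam))
      = ∑ j, ∑ k, ∑ l, Complex.normSq (Am lam D j k l) * lam l * Real.log (lam k / lam l) := by
  set A := Am lam D with hA
  set ℓ : ι → ℝ := fun k => Real.log (lam k) with hℓ
  have hlam0 : ∀ k, 0 ≤ lam k := fun k => (hlam k).le
  set nu : Fin n → ι → ι → ℝ := fun j k l => Complex.normSq (A j k l) * lam l with hnu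
  show _ = ∑ j, ∑ k, ∑ l, nu j k l * Real.log (lam k / lam l)
  have hnu' : ∀ j k l, nu j k l = lam k * Complex.normSq (D j k l) := by
    intro j k l
    simp only [hnu, hA, Am, dg, mul_diagonal, diagonal_mul, map_mul, Complex.normSq_ofReal]
    rw [Real.mul_self_sqrt (hlam0 k), ← mul_inv, Real.mul_self_sqrt (hlam0 l)]
    have := (hlam l).ne'
    field_simp
  have hN : NN (fun i => (D i)ᴴ) = ∑ i, D i * (D i)ᴴ := by simp [NN]
  simp only [hnu', Lg, LL, hN, Matrix.conjTranspose_conjTranspose, trl_sub, trl_half, trl_add]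
  rw [trl_dg_right, trl_dg_left]
  have eN : trl (fun k => ℓ k * lam k) (∑ i, D i * (D i)ᴴ)
      = ∑ j, ∑ k, ∑ l, ℓ k * lam k * Complex.normSq (D j k l) := by
    rw [trl_sum]
    simp only [trl, Matrix.mul_apply, Complex.re_sum, Finset.mul_sum, Matrix.conjTranspose_apply,
      Complex.star_def, Complex.mul_conj, Complex.ofReal_re]
  have eP : trl ℓ (∑ i, (D i)ᴴ * dg lam * D i)
      = ∑ j, ∑ k, ∑ l, ℓ l * lam k * Complex.normSq (D j k l) := by
    rw [trl_sum]
    refine Finset.sum_congr rfl fun j _ => ?_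
    simp only [trl]
    rw [Finset.sum_comm (f := fun k l => ℓ l * lam k * _)]
    refine Finset.sum_congr rfl fun l _ => ?_
    rw [Matrix.mul_apply, Complex.re_sum, Finset.mul_sum]
    refine Finset.sum_congr rfl fun k _ => ?_
    rw [dg, mul_diagonal, Matrix.conjTranspose_apply, Complex.normSq_apply]
    simp
    ring
  rw [eN, eP, neg_sub]
  simp only [Finset.mul_sum, ← Finset.sum_add_distrib, ← Finset.sum_sub_distrib]
  refine Finset.sum_congr rfl fun j _ => Finset.sum_congr rfl fun k _ =>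
    Finset.sum_congr rfl fun l _ => ?_
  rw [Real.log_div (hlam k).ne' (hlam l).ne', hℓ]
  ring

lemma integrand_nonneg {lam : ι → ℝ} (hlam : ∀ k, 0 < lam k) (hsum : ∑ k, lam k = 1)
    {A : Fin n → Matrix ι ι ℂ} (hvac : VacIneq lam A) {p : ℝ} (hp : 1 < p) {s : ℝ} (hs : 0 ≤ s) :
    0 ≤ Ec lam A (Gs lam A s) s
      + (∑ j, ∑ k, ∑ l, Complex.normSq (A j k l) * lam l
        * (-(th p s * ((lam k / lam l - 1) / (lam k / lam l + s) ^ 2)
        + 2 * (ww p s / (p + s)) * ((lam k / lam l - 1) / (lam k / lam l + s)))))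
      + n * hh p s := by
  have hlam0 : ∀ k, 0 ≤ lam k := fun k => (hlam k).le
  set nu : Fin n → ι → ι → ℝ := fun j k l => Complex.normSq (A j k l) * lam l with hnu
  set E : ℝ → ℝ := fun t => Ec lam A (Gs lam A t) t with hE
  show 0 ≤ E s + (∑ j, ∑ k, ∑ l, nu j k l * _) + n * hh p s
  set G := Gs lam A s with hG
  set T := ∑ j, ∑ k, ∑ l, nu j k l * ((lam k / lam l - 1) / (lam k / lam l + s) ^ 2) with hT
  set K := ∑ j, ∑ k, ∑ l, nu j k l * ((lam k / lam l - 1) / (lam k / lam l + s)) with hK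
  set E1 := ∑ i, ∑ j,
    ((A i * (G j)ᴴ - (G j)ᴴ * A i) * dg lam * (G j * (A i)ᴴ - (A i)ᴴ * G j)).trace.re with hE1
  have hdag : ∀ i j, G j * (A i)ᴴ - (A i)ᴴ * G j = (A i * (G j)ᴴ - (G j)ᴴ * A i)ᴴ := by
    intro i j; simp
  have hE1le : E1 ≤ E s := by
    rw [hE]
    simp only [Ec, Complex.re_sum, Complex.add_re, Complex.re_ofReal_mul]
    refine Finset.sum_le_sum fun i _ => Finset.sum_le_sum fun j _ => ?_
    have e : (G j)ᴴ * (A i)ᴴ - (A i)ᴴ * (G j)ᴴ = (A i * G j - G j * A i)ᴴ := by simp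
    rw [e]
    exact le_add_of_nonneg_right (mul_nonneg hs (re_trace_frob_nonneg hlam0 _))
  have hT1 : T ≤ E1 := by
    refine le_of_eq_of_le ?_ (hvac G)
    refine Finset.sum_congr rfl fun j _ => ?_
    have a : (G j * (G j)ᴴ * dg lam).trace.re
        = ∑ k, ∑ l, lam k * Complex.normSq (G j k l) := by
      simp only [Matrix.trace, Matrix.diag, Complex.re_sum, dg, mul_diagonal]
      refine Finset.sum_congr rfl fun k _ => ?_
      rw [Matrix.mul_apply, Finset.sum_mul, Complex.re_sum]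
      refine Finset.sum_congr rfl fun l _ => ?_
      rw [Matrix.conjTranspose_apply, Complex.star_def, Complex.mul_conj,
        ← Complex.ofReal_mul, Complex.ofReal_re, mul_comm]
    have b : ((G j)ᴴ * G j * dg lam).trace.re
        = ∑ k, ∑ l, lam l * Complex.normSq (G j k l) := by
      simp only [Matrix.trace, Matrix.diag, Complex.re_sum, dg, mul_diagonal]
      rw [Finset.sum_comm (f := fun k l => lam l * Complex.normSq (G j k l))]
      refine Finset.sum_congr rfl fun k _ => ?_
      rw [Matrix.mul_apply, Finset.sum_mul, Complex.re_sum]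
      refine Finset.sum_congr rfl fun l _ => ?_
      rw [Matrix.conjTranspose_apply, Complex.star_def, mul_comm (conj _), Complex.mul_conj,
        ← Complex.ofReal_mul, Complex.ofReal_re, mul_comm]
    rw [a, b, ← Finset.sum_sub_distrib]
    refine Finset.sum_congr rfl fun k _ => ?_
    rw [← Finset.sum_sub_distrib]
    refine Finset.sum_congr rfl fun l _ => ?_
    have : lam k + s * lam l ≠ 0 := by nlinarith [hlam k, hlam l]
    have := (hlam l).ne'
    simp only [hG, Gs, Matrix.of_apply, map_mul, Complex.normSq_ofReal, hnu]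
    field_simp
  have hK1 : 2 * (1 / (p + s)) * K - n * (1 / (p + s)) ^ 2 ≤ E1 := by
    have hd : ∀ i, ((A i * (G i)ᴴ - (G i)ᴴ * A i) * dg lam).trace.re
        = ∑ k, ∑ l, nu i k l * ((lam k / lam l - 1) / (lam k / lam l + s)) := by
      intro i
      simp only [Matrix.trace, Matrix.diag, dg, mul_diagonal, Matrix.sub_apply]
      simp only [Complex.re_sum, sub_mul, Complex.sub_re, Finset.sum_sub_distrib, Matrix.mul_apply,
        Finset.sum_mul, Matrix.conjTranspose_apply]
      rw [Finset.sum_comm (f := fun x x_1 => (star (G i x_1 x) * A i x_1 x * (lam x : ℂ)).re)]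
      simp only [← Finset.sum_sub_distrib]
      refine Finset.sum_congr rfl fun k _ => Finset.sum_congr rfl fun l _ => ?_
      have : lam k + s * lam l ≠ 0 := by nlinarith [hlam k, hlam l]
      have := (hlam l).ne'
      simp only [hG, Gs, Matrix.of_apply, hnu, Complex.normSq_apply, Complex.star_def, map_mul,
        Complex.conj_ofReal, Complex.mul_re, Complex.mul_im, Complex.conj_re, Complex.conj_im,
        Complex.ofReal_re, Complex.ofReal_im]
      field_simp
      ring
    have hs1 : 2 * (1 / (p + s)) * K - n * (1 / (p + s)) ^ 2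
        = ∑ i : Fin n, (2 * (1 / (p + s)) * ((A i * (G i)ᴴ - (G i)ᴴ * A i) * dg lam).trace.re
          - (1 / (p + s)) ^ 2) := by
      simp only [hd, hK, Finset.sum_sub_distrib, Finset.sum_const, Finset.card_univ,
        Fintype.card_fin, nsmul_eq_mul, Finset.mul_sum]
    rw [hs1]
    refine Finset.sum_le_sum fun i _ => le_trans (cauchy_schwarz hlam0 hsum _ _) ?_
    have hnn' : ∀ j ∈ (Finset.univ : Finset (Fin n)), 0 ≤ ((A i * (G j)ᴴ - (G j)ᴴ * A i)
        * dg lam * (G j * (A i)ᴴ - (A i)ᴴ * G j)).trace.re := fun j _ => by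
      rw [hdag]; exact re_trace_frob_nonneg hlam0 _
    refine le_trans (le_of_eq ?_) (Finset.single_le_sum hnn' (Finset.mem_univ i))
    rw [hdag]
  have hps : 0 < p + s := by linarith
  have hsumeq : (∑ j, ∑ k, ∑ l, nu j k l * (-(th p s * ((lam k / lam l - 1)
      / (lam k / lam l + s) ^ 2)
      + 2 * (ww p s / (p + s)) * ((lam k / lam l - 1) / (lam k / lam l + s)))))
      = -(th p s * T) - 2 * (ww p s / (p + s)) * K := by
    simp only [hT, hK, Finset.mul_sum, ← Finset.sum_sub_distrib, ← Finset.sum_neg_distrib]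
    refine Finset.sum_congr rfl fun j _ => Finset.sum_congr rfl fun k _ =>
      Finset.sum_congr rfl fun l _ => ?_
    ring
  rw [hsumeq]
  have hsplit : E s = th p s * E s + ww p s * E s := by unfold th; ring
  have a1 := mul_le_mul_of_nonneg_left (hT1.trans hE1le) (th_nonneg hp hs)
  have a2 := mul_le_mul_of_nonneg_left (hK1.trans hE1le) (ww_nonneg hp hs)
  have e2 : ww p s * (2 * (1 / (p + s)) * K - n * (1 / (p + s)) ^ 2)
      = 2 * (ww p s / (p + s)) * K - n * hh p s := by
    unfold ww; field_simp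
  rw [e2] at a2
  linarith

/-- The static inequality. -/
theorem static_ineq (lam : ι → ℝ) (hlam : ∀ k, 0 < lam k) (hsum : ∑ k, lam k = 1)
    (D : Fin n → Matrix ι ι ℂ) (hc : ∀ i j, D i * D j = D j * D i)
    (hn : ∀ i j, D i * (D j)ᴴ = (D j)ᴴ * D i) (hvac : VacIneq lam (Am lam D))
    {p : ℝ} (hp : 1 < p) :
    Bp p * (-trl (fun k => Real.log (lam k)) (Lg D (dg lam))) - n * (Bp p * Jp p)
      ≤ (∑ k, ∑ m, ddl (lam k) (lam m) * Complex.normSq (Lg D (dg lam) k m))
        + trl (fun k => Real.log (lam k)) (Lg D (Lg D (dg lam))) := by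
  rw [← conv_identity lam hlam D hc hn]
  set A := Am lam D with hA
  set ℓ : ι → ℝ := fun k => Real.log (lam k) with hℓ
  have hlam0 : ∀ k, 0 ≤ lam k := fun k => (hlam k).le
  have hy : ∀ k l, 0 < lam k / lam l := fun k l => div_pos (hlam k) (hlam l)
  set E : ℝ → ℝ := fun s => Ec lam A (Gs lam A s) s with hE
  have hcA : ∀ i j, A i * A j = A j * A i := by
    intro i j
    have e : ∀ i j, A i * A j
        = dg (fun k => √(lam k)) * (D i * D j) * dg (fun k => (√(lam k))⁻¹) := by
      intro i j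
      have hqr : dg (fun k => (√(lam k))⁻¹) * dg (fun k => √(lam k)) = 1 := by
        rw [dg_mul, show (fun k => (√(lam k))⁻¹ * √(lam k)) = fun _ => (1 : ℝ) from
          funext fun k => inv_mul_cancel₀ (Real.sqrt_pos.2 (hlam k)).ne', dg_one]
      simp only [hA, Am, Matrix.mul_assoc]
      rw [← Matrix.mul_assoc (dg fun k => (√(lam k))⁻¹), hqr, Matrix.one_mul]
    rw [e, e, hc]
  have hPhi0 := neg_Phi_zero hlam A
  set nu : Fin n → ι → ι → ℝ := fun j k l => Complex.normSq (A j k l) * lam l with hnu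
  have hR : -trl ℓ (Lg D (dg lam)) = ∑ j, ∑ k, ∑ l, nu j k l * Real.log (lam k / lam l) :=
    rate_eq hlam D
  set F : ℝ → ℝ := fun s => Phi lam A s
    + (∑ j, ∑ k, ∑ l, nu j k l * tf p (lam k / lam l) s) + n * HH p s with hF
  have hFd : ∀ s, 0 ≤ s → HasDerivAt F (E s
      + (∑ j, ∑ k, ∑ l, nu j k l * (-(th p s * ((lam k / lam l - 1) / (lam k / lam l + s) ^ 2)
        + 2 * (ww p s / (p + s)) * ((lam k / lam l - 1) / (lam k / lam l + s)))))
      + n * hh p s) s := fun s hs =>
    ((hasDerivAt_Phi hlam A hs).add (HasDerivAt.fun_sum fun j _ => HasDerivAt.fun_sum fun k _ =>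
      HasDerivAt.fun_sum fun l _ => (hasDerivAt_tf hp (hy k l) hs).const_mul _)).add
      ((hasDerivAt_HH hp hs).const_mul _)
  have hFl : Tendsto F atTop (𝓝 0) := by
    have h2 : Tendsto (fun s => ∑ j, ∑ k, ∑ l, nu j k l * tf p (lam k / lam l) s) atTop
        (𝓝 (∑ _j : Fin n, ∑ _k : ι, ∑ _l : ι, (0 : ℝ))) :=
      tendsto_finsetSum _ fun j _ => tendsto_finsetSum _ fun k _ => tendsto_finsetSum _ fun l _ => by
        simpa using (tendsto_tf hp (hy k l)).const_mul (nu j k l)
    have := ((tendsto_Phi lam hcA).add h2).add ((tendsto_HH hp).const_mul (n : ℝ))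
    simpa [hF] using this
  have hmono : MonotoneOn F (Set.Ici 0) := by
    refine monotoneOn_of_deriv_nonneg (convex_Ici 0)
      (fun s hs => (hFd s hs).continuousAt.continuousWithinAt) (fun s hs => ?_) fun s hs => ?_
    all_goals rw [interior_Ici] at hs
    · exact (hFd s (le_of_lt hs)).differentiableAt.differentiableWithinAt
    · rw [(hFd s (le_of_lt hs)).deriv]; exact integrand_nonneg hlam hsum hvac hp (le_of_lt hs)
  have hF0 : F 0 ≤ 0 := ge_of_tendsto hFl (by
    filter_upwards [eventually_ge_atTop 0] with s hs using hmono Set.self_mem_Ici hs hs)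
  have eF : F 0 = Phi lam A 0 + Bp p * (-trl ℓ (Lg D (dg lam))) - n * (Bp p * Jp p) := by
    simp only [hF, tf_zero hp, HH_zero, hR, Finset.mul_sum]
    rw [sub_eq_add_neg, mul_neg]
    simp only [mul_left_comm (Bp p)]
  rw [eF] at hF0
  rw [← hPhi0]
  linarith

end Vale.Agent.P369Cl
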