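/-
P369, classical inputs: the coherent-state kernel and the vacuum inequality.
-/
import Vale.Agent.P369Cl.Defs
import Vale.Agent.P369Cl.Static

open Matrix Finset
open scoped ComplexConjugate Nat

noncomputable section

namespace Vale.Agent.P369Cl

variable {ι : Type*} [Fintype ι] {n : ℕ}

/-- `⟨u,v⟩`, conjugate linear on the left. -/
def ipc (u v : Fin n → ℂ) : ℂ := ∑ k, conj (u k) * v k

/-- Degree `k` part of a coherent Gram form. -/
def Qd (k : ℕ) (z : ι → ℂ) (γ : ι → Fin n → ℂ) : ℝ :=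
  ∑ f : Fin k → Fin n, Complex.normSq (∑ a, z a * ∏ t, γ a (f t))

lemma Qd_nonneg (k : ℕ) (z : ι → ℂ) (γ : ι → Fin n → ℂ) : 0 ≤ Qd k z γ :=
  Finset.sum_nonneg fun _ _ => Complex.normSq_nonneg _

lemma pow_sum (k : ℕ) (u : Fin n → ℂ) : (∑ t, u t) ^ k = ∑ f : Fin k → Fin n, ∏ t, u (f t) := by
  rw [Finset.sum_pow', Fintype.piFinset_univ]

lemma Qd_eq (k : ℕ) (z : ι → ℂ) (γ : ι → Fin n → ℂ) :
    (Qd k z γ : ℂ) = ∑ a, ∑ b, conj (z a) * z b * ipc (γ a) (γ b) ^ k := by
  simp only [Qd, Complex.ofReal_sum, Complex.normSq_eq_conj_mul_self, map_sum, map_mul, map_prod,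
    Finset.sum_mul, ipc, pow_sum, Finset.prod_mul_distrib, Finset.mul_sum]
  conv_rhs => rw [Finset.sum_comm]
  rw [Finset.sum_comm]
  refine Finset.sum_congr rfl fun a _ => ?_
  rw [Finset.sum_comm]
  refine Finset.sum_congr rfl fun b _ => Finset.sum_congr rfl fun f _ => ?_
  ring

lemma hasSum_Qd (z : ι → ℂ) (γ : ι → Fin n → ℂ) :
    HasSum (fun k => Qd k z γ / k.factorial)
      (∑ a, ∑ b, conj (z a) * z b * Complex.exp (ipc (γ a) (γ b))).re := by
  have h : HasSum (fun k => ∑ a, ∑ b, conj (z a) * z b * (ipc (γ a) (γ b) ^ k / k.factorial))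
      (∑ a, ∑ b, conj (z a) * z b * Complex.exp (ipc (γ a) (γ b))) := by
    refine hasSum_sum fun a _ => hasSum_sum fun b _ => ?_
    rw [Complex.exp_eq_exp_ℂ]
    exact (NormedSpace.expSeries_div_hasSum_exp (ipc (γ a) (γ b))).mul_left _
  have e : ∀ k : ℕ, (∑ a, ∑ b, conj (z a) * z b * (ipc (γ a) (γ b) ^ k / k.factorial)).re
      = Qd k z γ / k.factorial := by
    intro k
    have : ∑ a, ∑ b, conj (z a) * z b * (ipc (γ a) (γ b) ^ k / k.factorial)
        = ((Qd k z γ / k.factorial : ℝ) : ℂ) := by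
      push_cast
      rw [Qd_eq]
      simp only [Finset.sum_div, mul_div_assoc]
    rw [this, Complex.ofReal_re]
  have := Complex.hasSum_re h
  simpa only [e] using this

lemma Qd_succ (k : ℕ) (z : ι → ℂ) (γ : ι → Fin n → ℂ) :
    ∑ i, Qd k (fun a => γ a i * z a) γ = Qd (k + 1) z γ := by
  have h : ((∑ i, Qd k (fun a => γ a i * z a) γ : ℝ) : ℂ) = (Qd (k + 1) z γ : ℂ) := by
    rw [Complex.ofReal_sum]
    simp only [Qd_eq, map_mul]
    rw [Finset.sum_comm]
    refine Finset.sum_congr rfl fun a _ => ?_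
    rw [Finset.sum_comm]
    refine Finset.sum_congr rfl fun b _ => ?_
    rw [pow_succ', ipc, Finset.sum_mul, Finset.mul_sum]
    refine Finset.sum_congr rfl fun i _ => ?_
    ring
  exact_mod_cast h

/-- `Re x^* G x`. -/
def frm (G : Matrix ι ι ℂ) (x : ι → ℂ) : ℝ := (∑ a, ∑ b, conj (x a) * x b * G a b).re

variable (α : ι → Fin n → ℂ) (p : ι → ℝ) (η : ℝ)

/-- The points seen from the centre `γ0`. -/
def shiftPt (γ0 : Fin n → ℂ) (a : ι) (k : Fin n) : ℂ := (√η : ℂ) * α a k - γ0 k

/-- The coefficients seen from the centre `γ0`. -/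
def shiftCoef (γ0 : Fin n → ℂ) (x : ι → ℂ) (a : ι) : ℂ :=
  x a * (√(p a) : ℂ) * Complex.exp (ipc γ0 (fun k => (√η : ℂ) * α a k)
    - (((∑ k, Complex.normSq ((√η : ℂ) * α a k)) / 2 : ℝ) : ℂ) - ipc γ0 γ0 / 2)

variable {α p η}

lemma gram_kernel (hη : 0 ≤ η) (hp : ∀ a, 0 ≤ p a) (γ0 : Fin n → ℂ) (x : ι → ℂ) (a b : ι) :
    conj (x a) * x b * coherentGram α p η a b
      = conj (shiftCoef α p η γ0 x a) * shiftCoef α p η γ0 x b
        * Complex.exp (ipc (shiftPt α η γ0 a) (shiftPt α η γ0 b)) := by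
  have hsq : ((√η : ℂ)) * (√η : ℂ) = (η : ℂ) := by rw [← Complex.ofReal_mul, Real.mul_self_sqrt hη]
  have e : (η : ℂ) * (∑ k, conj (α a k) * α b k
        - ((((∑ k, Complex.normSq (α a k)) + ∑ k, Complex.normSq (α b k)) / 2 : ℝ) : ℂ))
      = conj (ipc γ0 (fun k => (√η : ℂ) * α a k)
          - (((∑ k, Complex.normSq ((√η : ℂ) * α a k)) / 2 : ℝ) : ℂ) - ipc γ0 γ0 / 2)
        + (ipc γ0 (fun k => (√η : ℂ) * α b k)
          - (((∑ k, Complex.normSq ((√η : ℂ) * α b k)) / 2 : ℝ) : ℂ) - ipc γ0 γ0 / 2)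
        + ipc (shiftPt α η γ0 a) (shiftPt α η γ0 b) := by
    simp only [ipc, shiftPt, map_sub, map_div₀, map_ofNat, Complex.conj_ofReal, map_sum, map_mul,
      Complex.conj_conj, Complex.ofReal_div, Complex.ofReal_add, Complex.ofReal_sum,
      Complex.ofReal_mul, Complex.normSq_eq_conj_mul_self, Complex.ofReal_ofNat, add_div, Finset.sum_div,
      mul_sub, Finset.mul_sum, mul_add]
    simp only [← Finset.sum_sub_distrib, ← Finset.sum_add_distrib]
    refine Finset.sum_congr rfl fun k _ => ?_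
    linear_combination ((α a k) * conj (α a k) / 2 + (α b k) * conj (α b k) / 2
      - conj (α a k) * α b k) * hsq
  simp only [coherentGram, Matrix.of_apply, shiftCoef]
  rw [e, Complex.exp_add, Complex.exp_add, Real.sqrt_mul (hp a), Complex.ofReal_mul, map_mul,
    map_mul, ← Complex.exp_conj, Complex.conj_ofReal]
  ring

lemma frm_hasSum (hη : 0 ≤ η) (hp : ∀ a, 0 ≤ p a) (γ0 : Fin n → ℂ) (x : ι → ℂ) :
    HasSum (fun k => Qd k (shiftCoef α p η γ0 x) (shiftPt α η γ0) / k.factorial)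
      (frm (coherentGram α p η) x) := by
  have := hasSum_Qd (shiftCoef α p η γ0 x) (shiftPt α η γ0)
  have e : ∑ a, ∑ b, conj (x a) * x b * coherentGram α p η a b
      = ∑ a, ∑ b, conj (shiftCoef α p η γ0 x a) * shiftCoef α p η γ0 x b
        * Complex.exp (ipc (shiftPt α η γ0 a) (shiftPt α η γ0 b)) :=
    Finset.sum_congr rfl fun a _ => Finset.sum_congr rfl fun b _ => gram_kernel hη hp γ0 x a b
  rw [frm, e]; exact this

lemma coherentGram_herm (α : ι → Fin n → ℂ) (p : ι → ℝ) (η : ℝ) :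
    (coherentGram α p η).IsHermitian := by
  ext a b
  simp only [Matrix.conjTranspose_apply, coherentGram, Matrix.of_apply, Complex.star_def, map_mul,
    ← Complex.exp_conj, map_sub, map_sum, Complex.conj_ofReal, Complex.conj_conj]
  rw [mul_comm (p b), add_comm (∑ k, Complex.normSq (α b k))]
  simp only [mul_comm (α b _)]

lemma coherentGram_diag (α : ι → Fin n → ℂ) {p : ι → ℝ} (hp : ∀ a, 0 ≤ p a) (η : ℝ) (a : ι) :
    coherentGram α p η a a = p a := by
  simp only [coherentGram, Matrix.of_apply]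
  rw [Real.sqrt_mul_self (hp a)]
  have : ∑ k, conj (α a k) * α a k
      - ((((∑ k, Complex.normSq (α a k)) + ∑ k, Complex.normSq (α a k)) / 2 : ℝ) : ℂ) = 0 := by
    simp [Complex.normSq_eq_conj_mul_self]
  rw [this, mul_zero, Complex.exp_zero, mul_one]

lemma frm_pos (hη : 0 < η) (hp : ∀ a, 0 < p a) (hα : Function.Injective α) (x : ι → ℂ)
    (hx : x ≠ 0) : 0 < frm (coherentGram α p η) x := by
  have h := frm_hasSum (α := α) hη.le (fun a => (hp a).le) 0 x
  set z := shiftCoef α p η 0 x with hz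
  set γ := shiftPt α η 0 with hγ
  have h0 : 0 ≤ frm (coherentGram α p η) x :=
    h.nonneg fun k => div_nonneg (Qd_nonneg _ _ _) (Nat.cast_nonneg _)
  refine lt_of_le_of_ne h0 fun heq => hx ?_
  rw [← heq] at h
  have hk : ∀ (k : ℕ) (f : Fin k → Fin n), ∑ a, z a * ∏ t : Fin k, γ a (f t) = 0 := by
    intro k f
    have := (hasSum_zero_iff_of_nonneg
      (fun k => div_nonneg (Qd_nonneg _ _ _) (Nat.cast_nonneg _))).1 h
    have := congrFun this k
    simp only [Pi.zero_apply, div_eq_zero_iff, Nat.cast_eq_zero, Nat.factorial_ne_zero,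
      or_false] at this
    have := (Finset.sum_eq_zero_iff_of_nonneg fun _ _ => Complex.normSq_nonneg _).1 this f
      (Finset.mem_univ f)
    exact Complex.normSq_eq_zero.1 this
  have hγinj : Function.Injective γ := fun a b hab => hα (funext fun t => by
    have := congrFun hab t
    simpa [hγ, shiftPt, hη.le, hη.ne', Real.sqrt_eq_zero', not_le.2 hη] using this)
  -- a functional separating the finitely many points
  obtain ⟨τ, hτ⟩ : ∃ τ : ℂ, Function.Injective fun a => ∑ t : Fin n, τ ^ (t : ℕ) * γ a t := by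
    classical
    set poly : ι → Polynomial ℂ :=
      fun a => ∑ t : Fin n, Polynomial.monomial (t : ℕ) (γ a t) with hpoly
    have hpi : Function.Injective poly := by
      intro a b hab
      refine hγinj (funext fun t => ?_)
      have := congrArg (fun P => P.coeff (t : ℕ)) hab
      simpa [hpoly, Polynomial.finsetSum_coeff, Polynomial.coeff_monomial, Fin.val_inj] using this
    have hne : ∏ q ∈ (Finset.univ : Finset (ι × ι)).filter (fun q => q.1 ≠ q.2),
        (poly q.1 - poly q.2) ≠ 0 :=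
      Finset.prod_ne_zero_iff.2 fun q hq => sub_ne_zero.2 fun e => (Finset.mem_filter.1 hq).2 (hpi e)
    obtain ⟨τ, hτ⟩ : ∃ τ, (∏ q ∈ (Finset.univ : Finset (ι × ι)).filter (fun q => q.1 ≠ q.2),
        (poly q.1 - poly q.2)).eval τ ≠ 0 := by
      by_contra hc
      push Not at hc
      exact hne (Polynomial.funext fun t => by simp [hc t])
    refine ⟨τ, fun a b hab => ?_⟩
    by_contra hne'
    rw [Polynomial.eval_prod] at hτ
    refine Finset.prod_ne_zero_iff.1 hτ (a, b) (Finset.mem_filter.2 ⟨Finset.mem_univ _, hne'⟩) ?_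
    simp only [hpoly, Polynomial.eval_sub, Polynomial.eval_finsetSum, Polynomial.eval_monomial]
    simp only [mul_comm (γ _ _)]
    simpa [sub_eq_zero] using hab
  have hpw : ∀ k : ℕ, ∑ a, z a * (∑ t : Fin n, τ ^ (t : ℕ) * γ a t) ^ k = 0 := by
    intro k
    simp only [pow_sum, Finset.prod_mul_distrib, Finset.mul_sum]
    rw [Finset.sum_comm]
    refine Finset.sum_eq_zero fun f _ => ?_
    simp only [mul_left_comm (z _)]
    rw [← Finset.mul_sum, hk k f, mul_zero]
  set e := (Fintype.equivFin ι).symm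
  have hz0 : (fun j => z (e j)) = 0 :=
    Matrix.eq_zero_of_forall_pow_sum_mul_pow_eq_zero (hτ.comp e.injective) fun i => by
      rw [← hpw (i : ℕ)]
      exact e.sum_comp (fun a => z a * (∑ t : Fin n, τ ^ (t : ℕ) * γ a t) ^ (i : ℕ))
  funext a
  have : z a = 0 := by
    have := congrFun hz0 (e.symm a)
    simpa using this
  simp only [hz, shiftCoef, mul_eq_zero, Complex.exp_ne_zero, or_false, Complex.ofReal_eq_zero,
    Real.sqrt_eq_zero', not_le.2 (hp a)] at this
  simpa using this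

/-- The vacuum inequality `Σ_i ‖(a_i - γ_i) v‖² ≥ ‖v‖² - |⟨γ|v⟩|²` on the coherent span. -/
lemma vac_frm (hη : 0 ≤ η) (hp : ∀ a, 0 < p a) (c : ι) (x : ι → ℂ) :
    frm (coherentGram α p η) x - Complex.normSq (∑ a, coherentGram α p η c a * x a) / p c
      ≤ ∑ i, frm (coherentGram α p η) (fun a => ((√η : ℂ) * α a i - (√η : ℂ) * α c i) * x a) := by
  set γ0 : Fin n → ℂ := fun k => (√η : ℂ) * α c k with hγ0
  set z := shiftCoef α p η γ0 x with hz
  set γ := shiftPt α η γ0 with hγ
  have hp0 : ∀ a, 0 ≤ p a := fun a => (hp a).le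
  have h0 := frm_hasSum (α := α) hη hp0 γ0 x
  have h1 : HasSum (fun k => Qd (k + 1) z γ / k.factorial) (∑ i, frm (coherentGram α p η)
      (fun a => ((√η : ℂ) * α a i - (√η : ℂ) * α c i) * x a)) := by
    have := hasSum_sum (s := (Finset.univ : Finset (Fin n))) fun i _ => frm_hasSum (α := α) hη hp0
      γ0 (fun a => ((√η : ℂ) * α a i - (√η : ℂ) * α c i) * x a)
    refine this.congr_fun fun k => ?_
    rw [← Qd_succ, Finset.sum_div]
    refine Finset.sum_congr rfl fun i _ => ?_
    congr 2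
    funext a
    simp only [hz, shiftCoef, hγ, shiftPt, hγ0]
    ring
  have hQ0 : Qd 0 z γ = Complex.normSq (∑ a, coherentGram α p η c a * x a) / p c := by
    have e : ∀ a, coherentGram α p η c a * x a = (√(p c) : ℂ) * z a := by
      intro a
      have hsq : ((√η : ℂ)) * (√η : ℂ) = (η : ℂ) := by
        rw [← Complex.ofReal_mul, Real.mul_self_sqrt hη]
      simp only [coherentGram, Matrix.of_apply, hz, shiftCoef, hγ0]
      rw [Real.sqrt_mul (hp0 c), Complex.ofReal_mul]
      have : (η : ℂ) * (∑ k, conj (α c k) * α a k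
          - ((((∑ k, Complex.normSq (α c k)) + ∑ k, Complex.normSq (α a k)) / 2 : ℝ) : ℂ))
          = ipc (fun k => (√η : ℂ) * α c k) (fun k => (√η : ℂ) * α a k)
            - (((∑ k, Complex.normSq ((√η : ℂ) * α a k)) / 2 : ℝ) : ℂ)
            - ipc (fun k => (√η : ℂ) * α c k) (fun k => (√η : ℂ) * α c k) / 2 := by
        simp only [ipc, map_mul, Complex.conj_ofReal, Complex.ofReal_div, Complex.ofReal_add,
          Complex.ofReal_sum, Complex.ofReal_mul, Complex.normSq_eq_conj_mul_self, Complex.ofReal_ofNat, add_div,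
          Finset.sum_div, mul_sub, Finset.mul_sum, mul_add]
        simp only [← Finset.sum_sub_distrib, ← Finset.sum_add_distrib]
        refine Finset.sum_congr rfl fun k _ => ?_
        linear_combination (conj (α c k) * α c k / 2 + conj (α a k) * α a k / 2
          - conj (α c k) * α a k) * hsq
      rw [this]
      ring
    simp only [e, ← Finset.mul_sum, map_mul, Complex.normSq_ofReal, Real.mul_self_sqrt (hp0 c)]
    rw [mul_div_cancel_left₀ _ (hp c).ne']
    simp [Qd]
  have h0' : HasSum (fun k => Qd (k + 1) z γ / (k + 1).factorial)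
      (frm (coherentGram α p η) x - Qd 0 z γ) := by
    have := (hasSum_nat_add_iff' 1).2 h0
    simpa using this
  rw [← hQ0]
  refine hasSum_le (fun k => ?_) h0' h1
  exact div_le_div_of_nonneg_left (Qd_nonneg _ _ _) (by positivity)
    (by exact_mod_cast Nat.factorial_le (Nat.le_succ k))

lemma re_trace_mul_self (X : Matrix ι ι ℂ) :
    (Xᴴ * X).trace.re = ∑ c, ∑ k, Complex.normSq (X k c) := by
  simp only [Matrix.trace, Matrix.diag, Matrix.mul_apply, Matrix.conjTranspose_apply,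
    Complex.re_sum, Complex.star_def, ← Complex.normSq_eq_conj_mul_self, Complex.ofReal_re]

variable [DecidableEq ι]

/-- Eigen-decomposition data of a positive definite coherent Gram matrix. -/
lemma exists_eigen (hη : 0 < η) (hp : ∀ a, 0 < p a) (hα : Function.Injective α) :
    ∃ (U : Matrix ι ι ℂ) (lam : ι → ℝ), Uᴴ * U = 1 ∧ U * Uᴴ = 1 ∧ (∀ k, 0 < lam k) ∧
      coherentGram α p η = U * dg lam * Uᴴ := by
  set hG := coherentGram_herm α p η
  refine ⟨(hG.eigenvectorUnitary : Matrix ι ι ℂ), hG.eigenvalues, ?_, ?_, ?_, ?_⟩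
  · exact Unitary.coe_star_mul_self _
  · exact Unitary.coe_mul_star_self _
  · intro k
    rw [hG.eigenvalues_eq]
    have hne : (⇑(hG.eigenvectorBasis k) : ι → ℂ) ≠ 0 := by
      intro h0
      apply hG.eigenvectorBasis.orthonormal.ne_zero k
      ext a
      exact congrFun h0 a
    have := frm_pos hη hp hα _ hne
    simp only [frm] at this
    refine lt_of_lt_of_eq this ?_
    simp only [dotProduct, Matrix.mulVec, Finset.mul_sum, Pi.star_apply, Complex.star_def,
      RCLike.re_to_complex]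
    congr 1
    exact Finset.sum_congr rfl fun a _ => Finset.sum_congr rfl fun b _ => by ring
  · have := hG.spectral_theorem
    rw [Unitary.conjStarAlgAut_apply] at this
    exact this

/-- The annihilators of a coherent mixture satisfy the vacuum inequality. -/
theorem vacIneq_coherent (hη : 0 ≤ η) (hp : ∀ a, 0 < p a) (U : Matrix ι ι ℂ) (lam : ι → ℝ)
    (hU : Uᴴ * U = 1) (hU' : U * Uᴴ = 1) (hlam : ∀ k, 0 < lam k)
    (hG : coherentGram α p η = U * dg lam * Uᴴ) :
    VacIneq lam (Am lam fun i => Uᴴ * diagonal (fun a => (√η : ℂ) * α a i) * U) := by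
  set r : ι → ℝ := fun k => √(lam k) with hr
  set q : ι → ℝ := fun k => (√(lam k))⁻¹ with hq
  set d : Fin n → Matrix ι ι ℂ := fun i => diagonal (fun a => (√η : ℂ) * α a i) with hd
  set Φ := dg r * Uᴴ with hΦ
  set A := Am lam fun i => Uᴴ * d i * U with hA
  have hrr : dg r * dg r = dg lam := by
    rw [dg_mul]; congr 1; funext k; exact Real.mul_self_sqrt (hlam k).le
  have hqr : dg q * dg r = 1 := by
    rw [dg_mul, show (fun k => q k * r k) = fun _ => (1 : ℝ) from
      funext fun k => inv_mul_cancel₀ (Real.sqrt_pos.2 (hlam k)).ne', dg_one]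
  have hrq : dg r * dg q = 1 := by
    rw [dg_mul, show (fun k => r k * q k) = fun _ => (1 : ℝ) from
      funext fun k => mul_inv_cancel₀ (Real.sqrt_pos.2 (hlam k)).ne', dg_one]
  have hΦH : Φᴴ = U * dg r := by simp [hΦ, dg_conjTranspose]
  have hρ : Φ * Φᴴ = dg lam := by
    rw [hΦH, hΦ, Matrix.mul_assoc, ← Matrix.mul_assoc Uᴴ, hU, Matrix.one_mul, hrr]
  have hgram : Φᴴ * Φ = coherentGram α p η := by
    rw [hΦH, hΦ, hG, Matrix.mul_assoc, ← Matrix.mul_assoc (dg r), hrr, Matrix.mul_assoc]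
  have hAΦ : ∀ i, A i * Φ = Φ * d i := fun i => by
    show dg r * (Uᴴ * d i * U) * dg q * (dg r * Uᴴ) = dg r * Uᴴ * d i
    rw [Matrix.mul_assoc (dg r * (Uᴴ * d i * U)), ← Matrix.mul_assoc (dg q), hqr, Matrix.one_mul,
      Matrix.mul_assoc (dg r), Matrix.mul_assoc (Uᴴ * d i), hU', Matrix.mul_one, Matrix.mul_assoc]
  have hsur : ∀ v : ι → ℂ, Φ *ᵥ ((U * dg q) *ᵥ v) = v := fun v => by
    rw [Matrix.mulVec_mulVec, hΦ, Matrix.mul_assoc, ← Matrix.mul_assoc Uᴴ, hU, Matrix.one_mul, hrq,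
      Matrix.one_mulVec]
  have hnorm : ∀ x : ι → ℂ,
      ∑ k, Complex.normSq ((Φ *ᵥ x) k) = frm (coherentGram α p η) x := by
    intro x
    rw [← hgram, frm, ← Complex.ofReal_re (∑ k, Complex.normSq ((Φ *ᵥ x) k))]
    congr 1
    simp only [Complex.ofReal_sum, Complex.normSq_eq_conj_mul_self, Matrix.mulVec, dotProduct,
      Matrix.mul_apply, Matrix.conjTranspose_apply, map_sum, map_mul, Complex.star_def,
      Finset.sum_mul, Finset.mul_sum]
    conv_rhs => rw [Finset.sum_comm]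
    rw [Finset.sum_comm]
    refine Finset.sum_congr rfl fun a _ => ?_
    rw [Finset.sum_comm]
    refine Finset.sum_congr rfl fun b _ => Finset.sum_congr rfl fun k _ => ?_
    ring
  intro H
  have tf' : ∀ X : Matrix ι ι ℂ, (X * Xᴴ * dg lam).trace.re
      = ∑ c, ∑ k, Complex.normSq ((Xᴴ * Φ) k c) := fun X => by
    have e : (Xᴴ * Φ)ᴴ = Φᴴ * X := by
      rw [Matrix.conjTranspose_mul, Matrix.conjTranspose_conjTranspose]
    rw [← hρ, ← re_trace_mul_self, e, ← Matrix.mul_assoc, Matrix.trace_mul_comm (X * Xᴴ * Φ)]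
    simp only [Matrix.mul_assoc]
  have hdiagΦ : ∀ c, ∑ k, Complex.normSq (Φ k c) = p c := fun c => by
    have h1 : ((∑ k, Complex.normSq (Φ k c) : ℝ) : ℂ) = (p c : ℂ) := by
      rw [← coherentGram_diag α (fun a => (hp a).le) η c, ← hgram]
      simp [Matrix.mul_apply, Complex.normSq_eq_conj_mul_self]
    exact_mod_cast h1
  have hone : ∀ (j : Fin n) (c : ι),
      (∑ k, Complex.normSq (((H j)ᴴ * Φ) k c)) - ∑ k, Complex.normSq ((H j * Φ) k c)
      ≤ ∑ i, ∑ k, Complex.normSq (((A i * (H j)ᴴ - (H j)ᴴ * A i) * Φ) k c) := by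
    intro j c
    set v : ι → ℂ := fun k => ((H j)ᴴ * Φ) k c with hv
    set x := (U * dg q) *ᵥ v with hx
    have hΦx : Φ *ᵥ x = v := hsur v
    have hvac := vac_frm (α := α) hη hp c x
    have e1 : frm (coherentGram α p η) x = ∑ k, Complex.normSq (v k) := by rw [← hnorm, hΦx]
    have e2 : ∀ i, frm (coherentGram α p η)
        (fun a => ((√η : ℂ) * α a i - (√η : ℂ) * α c i) * x a)
        = ∑ k, Complex.normSq (((A i * (H j)ᴴ - (H j)ᴴ * A i) * Φ) k c) := by
      intro i
      rw [← hnorm]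
      refine Finset.sum_congr rfl fun k _ => congrArg Complex.normSq ?_
      have a1 : (fun a => ((√η : ℂ) * α a i - (√η : ℂ) * α c i) * x a)
          = d i *ᵥ x - ((√η : ℂ) * α c i) • x := by
        funext a
        simp [hd, Matrix.mulVec_diagonal, sub_mul]
      rw [a1, Matrix.mulVec_sub, Matrix.mulVec_smul, Matrix.mulVec_mulVec, ← hAΦ,
        ← Matrix.mulVec_mulVec, hΦx]
      rw [Matrix.sub_mul, Matrix.mul_assoc ((H j)ᴴ), hAΦ, ← Matrix.mul_assoc ((H j)ᴴ),
        Matrix.sub_apply, Pi.sub_apply]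
      congr 1
      · rw [Matrix.mul_assoc]; rfl
      · simp [hd, Matrix.mul_diagonal, hv, mul_comm]
    have e3 : ∑ a, coherentGram α p η c a * x a = ∑ k, conj (Φ k c) * v k := by
      rw [← hgram, show ∑ a, (Φᴴ * Φ) c a * x a = ((Φᴴ * Φ) *ᵥ x) c from rfl,
        ← Matrix.mulVec_mulVec, hΦx]
      rfl
    have hcs : Complex.normSq (∑ k, conj (Φ k c) * v k)
        ≤ (∑ k, Complex.normSq ((H j * Φ) k c)) * p c := by
      have sw : ∑ k, conj (Φ k c) * v k = ∑ l, conj ((H j * Φ) l c) * Φ l c := by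
        simp only [hv, Matrix.mul_apply, map_sum, Matrix.conjTranspose_apply, Finset.mul_sum,
          Finset.sum_mul, Complex.star_def, map_mul]
        rw [Finset.sum_comm]
        exact Finset.sum_congr rfl fun l _ => Finset.sum_congr rfl fun k _ => by ring
      rw [sw, Complex.normSq_eq_norm_sq, ← hdiagΦ c]
      refine le_trans (pow_le_pow_left₀ (norm_nonneg _) (norm_sum_le _ _) 2) ?_
      simp only [norm_mul, Complex.norm_conj, Complex.normSq_eq_norm_sq]
      exact Finset.sum_mul_sq_le_sq_mul_sq _ _ _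
    rw [e1, e3, Finset.sum_congr rfl fun i _ => e2 i] at hvac
    have := (div_le_iff₀ (hp c)).2 hcs
    linarith
  have hr : ∀ i j, ((A i * (H j)ᴴ - (H j)ᴴ * A i) * dg lam
      * (H j * (A i)ᴴ - (A i)ᴴ * H j)).trace.re
      = ∑ c, ∑ k, Complex.normSq (((A i * (H j)ᴴ - (H j)ᴴ * A i) * Φ) k c) := by
    intro i j
    set X := A i * (H j)ᴴ - (H j)ᴴ * A i with hX
    have : H j * (A i)ᴴ - (A i)ᴴ * H j = Xᴴ := by simp [hX]
    rw [this, Matrix.trace_mul_comm, ← Matrix.mul_assoc]
    have := tf' Xᴴ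
    rwa [Matrix.conjTranspose_conjTranspose] at this
  have hl : ∀ j, ((H j)ᴴ * H j * dg lam).trace.re
      = ∑ c, ∑ k, Complex.normSq ((H j * Φ) k c) := fun j => by
    have := tf' (H j)ᴴ
    rwa [Matrix.conjTranspose_conjTranspose] at this
  rw [Finset.sum_comm (γ := Fin n)]
  refine Finset.sum_le_sum fun j _ => ?_
  simp only [hr, hl, tf']
  rw [Finset.sum_comm (γ := Fin n), ← Finset.sum_sub_distrib]
  exact Finset.sum_le_sum fun c _ => hone j c

end Vale.Agent.P369Cl
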