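/-
P369, classical inputs: entropy of the coherent Gram matrix as a function of the transmissivity.
-/
import Vale.Agent.P369Cl.Kernel

open Matrix Finset Filter Topology
open scoped ComplexConjugate Matrix.Norms.L2Operator

noncomputable section

namespace Vale.Agent.P369Cl

variable {ι : Type*} [Fintype ι] [DecidableEq ι] {n : ℕ}

/-- Exponent of the Gram kernel. -/
def Kx (α : ι → Fin n → ℂ) (a b : ι) : ℂ :=
  ∑ k, conj (α a k) * α b k
    - ((((∑ k, Complex.normSq (α a k)) + ∑ k, Complex.normSq (α b k)) / 2 : ℝ) : ℂ)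

/-- Derivatives of the Gram matrix in the transmissivity. -/
def Gd (α : ι → Fin n → ℂ) (p : ι → ℝ) (m : ℕ) (η : ℝ) : Matrix ι ι ℂ :=
  of fun a b => Kx α a b ^ m * coherentGram α p η a b

/-- `-log` as a power series at `1`. -/
def Lser (X : Matrix ι ι ℂ) : Matrix ι ι ℂ := ∑' k : ℕ, ((k : ℝ) + 1)⁻¹ • X ^ (k + 1)

/-- Derivative of `Lser`. -/
def Lder (X Y : Matrix ι ι ℂ) : Matrix ι ι ℂ :=
  ∑' k : ℕ, ((k : ℝ) + 1)⁻¹ • ∑ i ∈ Finset.range (k + 1), X ^ (k - i) * Y * X ^ i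

omit [DecidableEq ι] in
lemma Gd_zero (α : ι → Fin n → ℂ) (p : ι → ℝ) (η : ℝ) : Gd α p 0 η = coherentGram α p η := by
  ext a b; simp [Gd]

omit [DecidableEq ι] in
lemma Kx_self (α : ι → Fin n → ℂ) (a : ι) : Kx α a a = 0 := by
  simp [Kx, Complex.normSq_eq_conj_mul_self]

omit [DecidableEq ι] in
lemma trace_Gd_one (α : ι → Fin n → ℂ) (p : ι → ℝ) (η : ℝ) : (Gd α p 1 η).trace = 0 := by
  simp [Matrix.trace, Gd, Kx_self]

lemma hasDerivAt_entries {M : ℝ → Matrix ι ι ℂ} {M' : Matrix ι ι ℂ} {η : ℝ}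
    (h : ∀ a b, HasDerivAt (fun t => M t a b) (M' a b) η) : HasDerivAt M M' η := by
  have e : ∀ N : Matrix ι ι ℂ, N = ∑ a, ∑ b, N a b • Matrix.single a b (1 : ℂ) := fun N => by
    conv_lhs => rw [Matrix.matrix_eq_sum_single N]
    simp [Matrix.smul_single]
  rw [e M', show M = fun t => ∑ a, ∑ b, M t a b • Matrix.single a b (1 : ℂ) from funext fun t => e _]
  exact HasDerivAt.fun_sum fun a _ => HasDerivAt.fun_sum fun b _ => (h a b).smul_const _

lemma hasDerivAt_Gd (α : ι → Fin n → ℂ) (p : ι → ℝ) (m : ℕ) (η : ℝ) :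
    HasDerivAt (Gd α p m) (Gd α p (m + 1) η) η := by
  refine hasDerivAt_entries fun a b => ?_
  have h1 : HasDerivAt (fun t : ℝ => (t : ℂ) * Kx α a b) (Kx α a b) η := by
    simpa using ((hasDerivAt_id η).ofReal_comp).mul_const (Kx α a b)
  have h2 := ((h1.cexp).const_mul (((√(p a * p b) : ℝ) : ℂ))).const_mul (Kx α a b ^ m)
  refine (h2.congr_of_eventuallyEq (Eventually.of_forall fun t => ?_)).congr_deriv ?_
  · simp [Gd, coherentGram, Kx]
  · simp only [Gd, coherentGram, Kx, Matrix.of_apply, pow_succ]; ring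

/-- The trace as a continuous linear functional. -/
def reTr : Matrix ι ι ℂ →L[ℝ] ℝ :=
  LinearMap.toContinuousLinearMap
    (Complex.reLm.comp ((Matrix.traceLinearMap ι ℂ ℂ).restrictScalars ℝ))

lemma reTr_apply (X : Matrix ι ι ℂ) : reTr X = X.trace.re := rfl

/-- Entropy in the eigenbasis. -/
lemma matrixEntropy_conj (U : Matrix ι ι ℂ) (hU : Uᴴ * U = 1) (lam : ι → ℝ) :
    matrixEntropy (U * dg lam * Uᴴ) = ∑ k, Real.negMulLog (lam k) := by
  have h : (U * dg lam * Uᴴ).charpoly = (dg lam).charpoly := by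
    rw [Matrix.charpoly_mul_comm, ← Matrix.mul_assoc, hU, Matrix.one_mul]
  rw [matrixEntropy, h, dg, Matrix.charpoly_diagonal, Polynomial.roots_prod _ _
    (Finset.prod_ne_zero_iff.2 fun i _ => Polynomial.X_sub_C_ne_zero _)]
  simp

lemma conj_pow (U : Matrix ι ι ℂ) (hU : Uᴴ * U = 1) (hU' : U * Uᴴ = 1) (X : Matrix ι ι ℂ) :
    ∀ k : ℕ, (U * X * Uᴴ) ^ k = U * X ^ k * Uᴴ
  | 0 => by simp [hU']
  | k + 1 => by
    rw [pow_succ, conj_pow U hU hU' X k, pow_succ]
    simp only [Matrix.mul_assoc]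
    rw [← Matrix.mul_assoc Uᴴ, hU, Matrix.one_mul]

lemma dg_pow (f : ι → ℝ) (k : ℕ) : dg f ^ k = dg (fun a => f a ^ k) := by
  rw [dg, Matrix.diagonal_pow]
  unfold dg
  congr 1
  funext a
  simp

lemma one_sub_conj (U : Matrix ι ι ℂ) (hU' : U * Uᴴ = 1) (lam : ι → ℝ) :
    1 - U * dg lam * Uᴴ = U * dg (fun a => 1 - lam a) * Uᴴ := by
  have : dg (fun a => 1 - lam a) = 1 - dg lam := by
    ext a b
    by_cases h : a = b <;> simp [dg, h]
  rw [this, Matrix.mul_sub, Matrix.sub_mul, Matrix.mul_one, hU']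

lemma norm_conj_dg (U : Matrix ι ι ℂ) (hU : Uᴴ * U = 1) (hU' : U * Uᴴ = 1) (f : ι → ℝ) :
    ‖U * dg f * Uᴴ‖ = ‖fun a => (f a : ℂ)‖ := by
  have h1 : U ∈ unitary (Matrix ι ι ℂ) := ⟨hU, hU'⟩
  have h2 : Uᴴ ∈ unitary (Matrix ι ι ℂ) := Unitary.star_mem h1
  rw [CStarRing.norm_mul_mem_unitary _ h2, CStarRing.norm_mem_unitary_mul _ h1, dg,
    Matrix.l2_opNorm_diagonal]

lemma hasSum_ddl {x y : ℝ} (hx : |x| < 1) (hy : |y| < 1) :
    HasSum (fun k : ℕ => ((k : ℝ) + 1)⁻¹ * ∑ i ∈ Finset.range (k + 1), x ^ (k - i) * y ^ i)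
      (ddl (1 - x) (1 - y)) := by
  by_cases h : x = y
  · subst h
    rw [ddl, if_pos rfl, one_div]
    refine (hasSum_geometric_of_abs_lt_one hx).congr_fun fun k => ?_
    have e : ∀ i ∈ Finset.range (k + 1), x ^ (k - i) * x ^ i = x ^ k := fun i hi => by
      rw [← pow_add, Nat.sub_add_cancel (Nat.lt_succ_iff.1 (Finset.mem_range.1 hi))]
    rw [Finset.sum_congr rfl e, Finset.sum_const, Finset.card_range, nsmul_eq_mul]
    push_cast
    field_simp
  · have h' : (1 : ℝ) - x ≠ 1 - y := fun e => h (by linarith)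
    rw [ddl, if_neg h']
    have := ((Real.hasSum_pow_div_log_of_abs_lt_one hx).sub
      (Real.hasSum_pow_div_log_of_abs_lt_one hy)).div_const (x - y)
    have e2 : (Real.log (1 - x) - Real.log (1 - y)) / (1 - x - (1 - y))
        = (-Real.log (1 - x) - -Real.log (1 - y)) / (x - y) := by
      rw [show (1 : ℝ) - x - (1 - y) = -(x - y) by ring, div_neg]; ring
    rw [e2]
    refine this.congr_fun fun k => ?_
    have hg : (∑ i ∈ Finset.range (k + 1), x ^ (k - i) * y ^ i) * (x - y)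
        = x ^ (k + 1) - y ^ (k + 1) := by
      have := geom_sum₂_mul y x (k + 1)
      simp only [Nat.add_sub_cancel] at this
      have e : ∑ i ∈ Finset.range (k + 1), x ^ (k - i) * y ^ i
          = ∑ i ∈ Finset.range (k + 1), y ^ i * x ^ (k - i) :=
        Finset.sum_congr rfl fun i _ => mul_comm _ _
      rw [e]
      linarith
    rw [← sub_div, ← hg]
    field_simp [sub_ne_zero.2 h]

/-- Spectral data for the Gram matrix. -/
structure Eig (α : ι → Fin n → ℂ) (p : ι → ℝ) (η : ℝ) where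
  U : Matrix ι ι ℂ
  lam : ι → ℝ
  hU : Uᴴ * U = 1
  hU' : U * Uᴴ = 1
  pos : ∀ k, 0 < lam k
  sum_one : ∑ k, lam k = 1
  eq : coherentGram α p η = U * dg lam * Uᴴ

variable {α : ι → Fin n → ℂ} {p : ι → ℝ}

lemma nonempty_eig {η : ℝ} (hη : 0 < η) (hp : ∀ a, 0 < p a) (hp1 : ∑ a, p a = 1)
    (hα : Function.Injective α) : Nonempty (Eig α p η) := by
  obtain ⟨U, lam, hU, hU', hpos, heq⟩ := exists_eigen (p := p) hη hp hα
  refine ⟨⟨U, lam, hU, hU', hpos, ?_, heq⟩⟩
  have h := congrArg Matrix.trace heq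
  rw [Matrix.trace_mul_comm, ← Matrix.mul_assoc, hU, Matrix.one_mul, dg,
    Matrix.trace_diagonal] at h
  have : (∑ a, (p a : ℂ)) = ∑ k, (lam k : ℂ) := by
    rw [← h]
    exact Finset.sum_congr rfl fun a _ => (coherentGram_diag α (fun a => (hp a).le) η a).symm
  rw [← hp1]
  exact_mod_cast this.symm

namespace Eig

variable {η : ℝ} (e : Eig α p η)

lemma lam_le_one (k : ι) : e.lam k ≤ 1 := by
  rw [← e.sum_one]
  exact Finset.single_le_sum (fun i _ => (e.pos i).le) (Finset.mem_univ k)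

lemma abs_lt (k : ι) : |1 - e.lam k| < 1 :=
  _root_.abs_lt.2 ⟨by linarith [e.lam_le_one k], by linarith [e.pos k]⟩

lemma one_sub_eq : 1 - coherentGram α p η = e.U * dg (fun a => 1 - e.lam a) * e.Uᴴ := by
  rw [e.eq, one_sub_conj _ e.hU']

include e in
lemma norm_lt : ‖1 - coherentGram α p η‖ < 1 := by
  rw [e.one_sub_eq, norm_conj_dg _ e.hU e.hU', pi_norm_lt_iff one_pos]
  intro k
  rw [Complex.norm_real, Real.norm_eq_abs]
  exact e.abs_lt k

lemma hasSum_Lser :
    HasSum (fun k : ℕ => ((k : ℝ) + 1)⁻¹ • (1 - coherentGram α p η) ^ (k + 1))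
      (e.U * dg (fun a => -Real.log (e.lam a)) * e.Uᴴ) := by
  have h : HasSum (fun k : ℕ => dg (fun a => (1 - e.lam a) ^ (k + 1) / ((k : ℝ) + 1)))
      (dg fun a => -Real.log (e.lam a)) := by
    refine HasSum.matrix_diagonal (Pi.hasSum.2 fun a => ?_)
    have := Real.hasSum_pow_div_log_of_abs_lt_one (e.abs_lt a)
    rw [show (1 : ℝ) - (1 - e.lam a) = e.lam a by ring] at this
    exact Complex.hasSum_ofReal.2 this
  refine ((h.mul_left e.U).mul_right e.Uᴴ).congr_fun fun k => ?_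
  rw [e.one_sub_eq, conj_pow _ e.hU e.hU', dg_pow, ← Matrix.smul_mul, ← Matrix.mul_smul]
  congr 2
  ext a b
  by_cases hab : a = b
  · subst hab
    simp [dg, div_eq_inv_mul]
  · simp [dg, hab]

lemma Lser_eq : Lser (1 - coherentGram α p η) = e.U * dg (fun a => -Real.log (e.lam a)) * e.Uᴴ :=
  e.hasSum_Lser.tsum_eq

lemma Lder_eq (Y : Matrix ι ι ℂ) : Lder (1 - coherentGram α p η) Y
    = e.U * (of fun a b => (ddl (e.lam a) (e.lam b) : ℂ) * (e.Uᴴ * Y * e.U) a b) * e.Uᴴ := by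
  set Y' := e.Uᴴ * Y * e.U with hY'
  have hY : Y = e.U * Y' * e.Uᴴ := by
    simp only [hY', Matrix.mul_assoc, e.hU', Matrix.mul_one]
    rw [← Matrix.mul_assoc, e.hU', Matrix.one_mul]
  set x : ι → ℝ := fun a => 1 - e.lam a with hx
  have h : HasSum (fun k : ℕ => (of fun a b => ((((k : ℝ) + 1)⁻¹
        * ∑ i ∈ Finset.range (k + 1), x a ^ (k - i) * x b ^ i : ℝ) : ℂ) * Y' a b : Matrix ι ι ℂ))
      (of fun a b => (ddl (e.lam a) (e.lam b) : ℂ) * Y' a b) := by
    refine Pi.hasSum.2 fun a => Pi.hasSum.2 fun b => ?_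
    have := hasSum_ddl (e.abs_lt a) (e.abs_lt b)
    simp only [sub_sub_cancel] at this
    exact (Complex.hasSum_ofReal.2 this).mul_right (Y' a b)
  refine HasSum.tsum_eq (((h.mul_left e.U).mul_right e.Uᴴ).congr_fun fun k => ?_)
  have hterm : ∀ i, (1 - coherentGram α p η) ^ (k - i) * Y * (1 - coherentGram α p η) ^ i
      = e.U * (dg (fun a => x a ^ (k - i)) * Y' * dg (fun a => x a ^ i)) * e.Uᴴ := fun i => by
    rw [e.one_sub_eq, conj_pow _ e.hU e.hU', conj_pow _ e.hU e.hU', dg_pow, dg_pow, hY]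
    simp only [Matrix.mul_assoc]
    rw [← Matrix.mul_assoc e.Uᴴ, e.hU, Matrix.one_mul, ← Matrix.mul_assoc e.Uᴴ e.U, e.hU,
      Matrix.one_mul]
  simp only [hterm, ← Finset.sum_mul, ← Finset.mul_sum]
  rw [← Matrix.smul_mul, ← Matrix.mul_smul]
  congr 2
  ext a b
  simp [dg, Matrix.sum_apply, mul_diagonal, diagonal_mul, Finset.mul_sum, Finset.sum_mul]
  refine Finset.sum_congr rfl fun i _ => ?_
  ring

end Eig

lemma hasDerivAt_Lser {η : ℝ} (hη : 0 < η) (hp : ∀ a, 0 < p a) (hp1 : ∑ a, p a = 1)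
    (hα : Function.Injective α) :
    HasDerivAt (fun t => Lser (1 - coherentGram α p t))
      (Lder (1 - coherentGram α p η) (-Gd α p 1 η)) η := by
  obtain ⟨e⟩ := nonempty_eig hη hp hp1 hα
  set X : ℝ → Matrix ι ι ℂ := fun t => 1 - coherentGram α p t with hX
  have hXd : ∀ t, HasDerivAt X (-Gd α p 1 t) t := fun t => by
    have := (hasDerivAt_Gd α p 0 t).const_sub (1 : Matrix ι ι ℂ)
    simpa [hX, Gd_zero] using this
  have hXc : Continuous X := continuous_iff_continuousAt.2 fun t => (hXd t).continuousAt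
  have hX'c : Continuous (Gd α p 1) :=
    continuous_iff_continuousAt.2 fun t => (hasDerivAt_Gd α p 1 t).continuousAt
  set c := (1 + ‖X η‖) / 2 with hc
  have hn : ‖X η‖ < 1 := e.norm_lt
  have hc1 : c < 1 := by rw [hc]; linarith
  have hc0 : 0 ≤ c := by positivity
  have hnhd : ∀ᶠ t in 𝓝 η, ‖X t‖ < c ∧ ‖Gd α p 1 t‖ < ‖Gd α p 1 η‖ + 1 :=
    ((hXc.norm.tendsto η).eventually_lt_const (by rw [hc]; linarith)).and
      ((hX'c.norm.tendsto η).eventually_lt_const (by linarith))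
  obtain ⟨ε, hε, hball⟩ := Metric.eventually_nhds_iff_ball.1 hnhd
  set M : ℝ := max 1 ‖(1 : Matrix ι ι ℂ)‖ with hM
  have hM1 : 1 ≤ M := le_max_left _ _
  have hpow : ∀ t ∈ Metric.ball η ε, ∀ j : ℕ, ‖X t ^ j‖ ≤ M * c ^ j := by
    intro t ht j
    induction j with
    | zero => simp [hM]
    | succ j ih =>
      rw [pow_succ, pow_succ, ← mul_assoc]
      exact le_trans (norm_mul_le _ _)
        (mul_le_mul ih (hball t ht).1.le (norm_nonneg _) (by positivity))
  set u : ℕ → ℝ := fun k => M * M * (‖Gd α p 1 η‖ + 1) * c ^ k with hu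
  have husum : Summable u := (summable_geometric_of_lt_one hc0 hc1).mul_left _
  have hy : η ∈ Metric.ball η ε := Metric.mem_ball_self hε
  refine hasDerivAt_tsum_of_isPreconnected (g := fun (k : ℕ) t => ((k : ℝ) + 1)⁻¹ • X t ^ (k + 1))
    (g' := fun (k : ℕ) t => ((k : ℝ) + 1)⁻¹ •
      ∑ i ∈ Finset.range (k + 1), X t ^ (k - i) * (-Gd α p 1 t) * X t ^ i)
    husum Metric.isOpen_ball (convex_ball η ε).isPreconnected (fun k t _ => ?_) (fun k t ht => ?_)
    hy e.hasSum_Lser.summable hy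
  · exact ((hXd t).fun_pow' (k + 1)).const_smul ((k : ℝ) + 1)⁻¹
  · rw [norm_smul, Real.norm_eq_abs, abs_of_pos (by positivity)]
    refine le_trans (mul_le_mul_of_nonneg_left (le_trans (norm_sum_le _ _)
      (Finset.sum_le_card_nsmul _ _ (u k) fun i hi => ?_)) (by positivity)) (le_of_eq ?_)
    · have hik : k - i + i = k := Nat.sub_add_cancel (Nat.lt_succ_iff.1 (Finset.mem_range.1 hi))
      refine le_trans (norm_mul₃_le) ?_
      rw [norm_neg]
      calc ‖X t ^ (k - i)‖ * ‖Gd α p 1 t‖ * ‖X t ^ i‖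
          ≤ (M * c ^ (k - i)) * (‖Gd α p 1 η‖ + 1) * (M * c ^ i) :=
            mul_le_mul (mul_le_mul (hpow t ht _) (hball t ht).2.le (norm_nonneg _) (by positivity))
              (hpow t ht _) (norm_nonneg _) (by positivity)
        _ = M * M * (‖Gd α p 1 η‖ + 1) * c ^ (k - i + i) := by rw [pow_add]; ring
        _ = u k := by rw [hik]
    · rw [Finset.card_range, nsmul_eq_mul]
      push_cast
      field_simp

variable (α p)

/-- Entropy of the output. -/
def Ent (η : ℝ) : ℝ := matrixEntropy (coherentGram α p η)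

/-- `η S'(η)`. -/
def Rt (η : ℝ) : ℝ := η * (Gd α p 1 η * Lser (1 - coherentGram α p η)).trace.re

variable {α p}

lemma Ent_eq {η : ℝ} (hη : 0 < η) (hp : ∀ a, 0 < p a) (hp1 : ∑ a, p a = 1)
    (hα : Function.Injective α) :
    Ent α p η = reTr (coherentGram α p η * Lser (1 - coherentGram α p η)) := by
  obtain ⟨e⟩ := nonempty_eig hη hp hp1 hα
  rw [Ent, e.Lser_eq, reTr_apply, e.eq, matrixEntropy_conj _ e.hU]
  have h : e.U * dg e.lam * e.Uᴴ * (e.U * dg (fun a => -Real.log (e.lam a)) * e.Uᴴ)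
      = e.U * dg (fun a => e.lam a * -Real.log (e.lam a)) * e.Uᴴ := by
    rw [← dg_mul]
    simp only [Matrix.mul_assoc]
    rw [← Matrix.mul_assoc e.Uᴴ, e.hU, Matrix.one_mul]
  rw [h, Matrix.trace_mul_comm, ← Matrix.mul_assoc, e.hU, Matrix.one_mul, dg,
    Matrix.trace_diagonal, Complex.re_sum]
  exact Finset.sum_congr rfl fun a _ => by simp [Real.negMulLog]

lemma hasDerivAt_Ent {η : ℝ} (hη : 0 < η) (hp : ∀ a, 0 < p a) (hp1 : ∑ a, p a = 1)
    (hα : Function.Injective α) : HasDerivAt (Ent α p) (Rt α p η / η) η := by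
  obtain ⟨e⟩ := nonempty_eig hη hp hp1 hα
  have hG : HasDerivAt (coherentGram α p) (Gd α p 1 η) η := by
    have := hasDerivAt_Gd α p 0 η
    rwa [show Gd α p 0 = coherentGram α p from funext fun t => Gd_zero α p t] at this
  have h := reTr.hasFDerivAt.comp_hasDerivAt η (hG.mul (hasDerivAt_Lser hη hp hp1 hα))
  refine (h.congr_of_eventuallyEq ?_).congr_deriv ?_
  · filter_upwards [lt_mem_nhds hη] with t ht
    exact Ent_eq ht hp hp1 hα
  · rw [map_add, Rt, mul_div_cancel_left₀ _ hη.ne', reTr_apply, reTr_apply]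
    suffices h0 : (coherentGram α p η
        * Lder (1 - coherentGram α p η) (-Gd α p 1 η)).trace = 0 by rw [h0]; simp
    rw [e.Lder_eq, e.eq]
    set Y' := e.Uᴴ * -Gd α p 1 η * e.U with hY'
    have h1 : e.U * dg e.lam * e.Uᴴ
        * (e.U * (of fun a b => (ddl (e.lam a) (e.lam b) : ℂ) * Y' a b) * e.Uᴴ)
        = e.U * (dg e.lam * of fun a b => (ddl (e.lam a) (e.lam b) : ℂ) * Y' a b) * e.Uᴴ := by
      simp only [Matrix.mul_assoc]
      rw [← Matrix.mul_assoc e.Uᴴ, e.hU, Matrix.one_mul]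
    rw [h1, Matrix.trace_mul_comm, ← Matrix.mul_assoc, e.hU, Matrix.one_mul]
    have h2 : Y'.trace = 0 := by
      rw [hY', Matrix.trace_mul_comm, ← Matrix.mul_assoc, e.hU', Matrix.one_mul,
        Matrix.trace_neg, trace_Gd_one, neg_zero]
    rw [← h2]
    refine Finset.sum_congr rfl fun a _ => ?_
    have : (e.lam a : ℂ) ≠ 0 := Complex.ofReal_ne_zero.2 (e.pos a).ne'
    rw [Matrix.diag_apply, Matrix.diag_apply, dg, diagonal_mul, Matrix.of_apply, ddl, if_pos rfl]
    push_cast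
    field_simp

/-- The differential inequality satisfied by `η S'(η)`. -/
lemma rate_ineq {η : ℝ} (hη : 0 < η) (hp : ∀ a, 0 < p a) (hp1 : ∑ a, p a = 1)
    (hα : Function.Injective α) :
    ∃ d, HasDerivAt (Rt α p) d η ∧ ∀ q : ℝ, 1 < q →
      η * d ≤ (1 - Bp q) * Rt α p η + n * (Bp q * Jp q) := by
  obtain ⟨e⟩ := nonempty_eig hη hp hp1 hα
  have hA := reTr.hasFDerivAt.comp_hasDerivAt η
    ((hasDerivAt_Gd α p 1 η).mul (hasDerivAt_Lser hη hp hp1 hα))
  refine ⟨_, (hasDerivAt_id η).mul hA, fun q hq => ?_⟩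
  set D : Fin n → Matrix ι ι ℂ :=
    fun i => e.Uᴴ * diagonal (fun a => (√η : ℂ) * α a i) * e.U with hD
  have hUU : ∀ X : Matrix ι ι ℂ, e.U * (e.Uᴴ * X) = X := fun X => by
    rw [← Matrix.mul_assoc, e.hU', Matrix.one_mul]
  have hUH : ∀ X : Matrix ι ι ℂ, e.Uᴴ * (e.U * X) = X := fun X => by
    rw [← Matrix.mul_assoc, e.hU, Matrix.one_mul]
  have hcomm : ∀ (f g : ι → ℂ) (X Y : Matrix ι ι ℂ),
      X = e.Uᴴ * diagonal f * e.U → Y = e.Uᴴ * diagonal g * e.U → X * Y = Y * X := by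
    intro f g X Y hX hY
    rw [hX, hY]
    simp only [Matrix.mul_assoc, hUU]
    rw [← Matrix.mul_assoc (diagonal f), ← Matrix.mul_assoc (diagonal g),
      diagonal_mul_diagonal, diagonal_mul_diagonal]
    simp only [mul_comm]
  have hDH : ∀ i, (D i)ᴴ = e.Uᴴ * diagonal (fun a => star ((√η : ℂ) * α a i)) * e.U := fun i => by
    simp only [hD, Matrix.conjTranspose_mul, Matrix.conjTranspose_conjTranspose,
      Matrix.diagonal_conjTranspose, Matrix.mul_assoc]
    rfl
  have hLg : ∀ Y : Matrix ι ι ℂ, e.U * Lg D Y * e.Uᴴ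
      = of fun a b => (η : ℂ) * Kx α a b * (e.U * Y * e.Uᴴ) a b := by
    intro Y
    set W := e.U * Y * e.Uᴴ with hW
    have hY : Y = e.Uᴴ * W * e.U := by
      simp only [hW, Matrix.mul_assoc, e.hU, Matrix.mul_one, hUH]
    have e1 : ∀ i, e.U * ((D i)ᴴ * Y * D i) * e.Uᴴ
        = diagonal (fun a => star ((√η : ℂ) * α a i)) * W
          * diagonal (fun a => (√η : ℂ) * α a i) := fun i => by
      rw [hDH, hY, hD]
      simp only [Matrix.mul_assoc, hUU, e.hU', Matrix.mul_one]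
    have eN : NN (fun i => (D i)ᴴ) = e.Uᴴ
        * diagonal (fun a => ∑ i, ((√η : ℂ) * α a i) * star ((√η : ℂ) * α a i)) * e.U := by
      simp only [NN, Matrix.conjTranspose_conjTranspose]
      have : ∀ i, D i * (D i)ᴴ = e.Uᴴ
          * diagonal (fun a => ((√η : ℂ) * α a i) * star ((√η : ℂ) * α a i)) * e.U := fun i => by
        rw [hDH, hD]
        simp only [Matrix.mul_assoc, hUU]
        rw [← Matrix.mul_assoc (diagonal _), diagonal_mul_diagonal]
      rw [Finset.sum_congr rfl fun i _ => this i, ← Finset.sum_mul, ← Finset.mul_sum]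
      congr 2
      ext a b
      by_cases hab : a = b
      · subst hab; simp [Matrix.sum_apply]
      · simp [Matrix.sum_apply, hab]
    have e2 : e.U * Lg D Y * e.Uᴴ = (∑ i, diagonal (fun a => star ((√η : ℂ) * α a i)) * W
          * diagonal (fun a => (√η : ℂ) * α a i))
        - (1 / 2 : ℂ) • (diagonal (fun a => ∑ i, ((√η : ℂ) * α a i) * star ((√η : ℂ) * α a i)) * W
          + W * diagonal (fun a => ∑ i, ((√η : ℂ) * α a i) * star ((√η : ℂ) * α a i))) := by
      simp only [Lg, LL, Matrix.mul_sub, Matrix.sub_mul, Matrix.mul_smul, Matrix.smul_mul,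
        Finset.mul_sum, Finset.sum_mul, Matrix.conjTranspose_conjTranspose, e1]
      congr 2
      rw [eN, hY]
      simp only [Matrix.mul_add, Matrix.add_mul, Matrix.mul_assoc, hUU, e.hU', Matrix.mul_one]
    rw [e2]
    ext a b
    have hsq : ((√η : ℂ)) * (√η : ℂ) = (η : ℂ) := by
      rw [← Complex.ofReal_mul, Real.mul_self_sqrt hη.le]
    simp only [Matrix.sub_apply, Matrix.sum_apply, Matrix.smul_apply, Matrix.add_apply,
      mul_diagonal, diagonal_mul, Matrix.of_apply, smul_eq_mul, Complex.star_def, map_mul,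
      Complex.conj_ofReal, Kx, Complex.ofReal_div, Complex.ofReal_add, Complex.ofReal_sum,
      Complex.normSq_eq_conj_mul_self, Complex.ofReal_ofNat, mul_sub, sub_mul, Finset.sum_mul,
      Finset.mul_sum, mul_add, add_div, Finset.sum_div, add_mul]
    simp only [← Finset.sum_add_distrib, ← Finset.sum_sub_distrib]
    refine Finset.sum_congr rfl fun i _ => ?_
    linear_combination (W a b * conj (α a i) * α b i - W a b * conj (α a i) * α a i / 2
      - W a b * conj (α b i) * α b i / 2) * hsq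
  have hL1 : e.U * Lg D (dg e.lam) * e.Uᴴ = (η : ℂ) • Gd α p 1 η := by
    rw [hLg, ← e.eq]
    ext a b
    simp [Gd]; ring
  have hL2 : e.U * Lg D (Lg D (dg e.lam)) * e.Uᴴ = ((η : ℂ) * η) • Gd α p 2 η := by
    rw [hLg, hL1]
    ext a b
    simp [Gd]; ring
  have htr : ∀ (f : ι → ℝ) (Y : Matrix ι ι ℂ),
      (e.U * Y * e.Uᴴ * (e.U * dg f * e.Uᴴ)).trace.re = trl f Y := by
    intro f Y
    have : e.U * Y * e.Uᴴ * (e.U * dg f * e.Uᴴ) = e.U * (Y * dg f) * e.Uᴴ := by
      simp only [Matrix.mul_assoc, hUH]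
    rw [this, Matrix.trace_mul_comm, ← Matrix.mul_assoc, e.hU, Matrix.one_mul]
    simp [trl, Matrix.trace, dg, mul_diagonal, mul_comm]
  set ℓ : ι → ℝ := fun a => Real.log (e.lam a) with hℓ
  have hnl : ∀ Y, trl (fun a => -Real.log (e.lam a)) Y = -trl ℓ Y := fun Y => by
    simp [trl, hℓ]
  have k1 : η * (Gd α p 1 η * Lser (1 - coherentGram α p η)).trace.re
      = -trl ℓ (Lg D (dg e.lam)) := by
    rw [← hnl, ← htr, hL1, e.Lser_eq, Matrix.smul_mul, Matrix.trace_smul, smul_eq_mul,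
      Complex.re_ofReal_mul]
  have k2 : η ^ 2 * (Gd α p 2 η * Lser (1 - coherentGram α p η)).trace.re
      = -trl ℓ (Lg D (Lg D (dg e.lam))) := by
    rw [← hnl, ← htr, hL2, e.Lser_eq, Matrix.smul_mul, Matrix.trace_smul, smul_eq_mul,
      ← Complex.ofReal_mul, Complex.re_ofReal_mul]
    ring
  have k3 : η ^ 2 * (Gd α p 1 η * Lder (1 - coherentGram α p η) (-Gd α p 1 η)).trace.re
      = -∑ a, ∑ b, ddl (e.lam a) (e.lam b) * Complex.normSq (Lg D (dg e.lam) a b) := by
    set M := Lg D (dg e.lam) with hM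
    have hM' : M = (η : ℂ) • (e.Uᴴ * Gd α p 1 η * e.U) := by
      rw [← Matrix.smul_mul, ← Matrix.mul_smul, ← hL1]
      simp only [Matrix.mul_assoc, e.hU, Matrix.mul_one, hUH]
    have hMH : Mᴴ = M := by
      rw [hM, Lg, LL_conjTranspose, dg_conjTranspose]
    set Y := e.Uᴴ * Gd α p 1 η * e.U with hY
    have hYn : e.Uᴴ * -Gd α p 1 η * e.U = -Y := by simp [hY]
    have hG1 : Gd α p 1 η = e.U * Y * e.Uᴴ := by
      simp only [hY, Matrix.mul_assoc, e.hU', Matrix.mul_one, hUU]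
    have e3 : (Gd α p 1 η * Lder (1 - coherentGram α p η) (-Gd α p 1 η)).trace
        = -∑ a, ∑ b, (ddl (e.lam a) (e.lam b) : ℂ) * (Y b a * Y a b) := by
      rw [e.Lder_eq, hYn]
      set Z : Matrix ι ι ℂ := of fun a b => (ddl (e.lam a) (e.lam b) : ℂ) * (-Y) a b with hZ
      have : Gd α p 1 η * (e.U * Z * e.Uᴴ) = e.U * (Y * Z) * e.Uᴴ := by
        rw [hG1]; simp only [Matrix.mul_assoc, hUH]
      rw [this, Matrix.trace_mul_comm, ← Matrix.mul_assoc, e.hU, Matrix.one_mul]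
      simp only [Matrix.trace, Matrix.diag, Matrix.mul_apply, hZ, Matrix.of_apply,
        Matrix.neg_apply]
      rw [Finset.sum_comm, ← Finset.sum_neg_distrib]
      refine Finset.sum_congr rfl fun a _ => ?_
      rw [← Finset.sum_neg_distrib]
      refine Finset.sum_congr rfl fun b _ => ?_
      ring
    rw [e3, Complex.neg_re, Complex.re_sum, mul_neg, Finset.mul_sum]
    simp only [Complex.re_sum, Finset.mul_sum]
    congr 1
    refine Finset.sum_congr rfl fun a _ => Finset.sum_congr rfl fun b _ => ?_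
    have hba : M b a = conj (M a b) := by
      rw [← Complex.star_def, ← Matrix.conjTranspose_apply, hMH]
    have : ((η : ℂ) * η) * (Y b a * Y a b) = (Complex.normSq (M a b) : ℂ) := by
      rw [Complex.normSq_eq_conj_mul_self, ← hba, hM']
      simp only [Matrix.smul_apply, smul_eq_mul]
      ring
    have h2 := congrArg Complex.re this
    rw [← Complex.ofReal_mul, Complex.re_ofReal_mul, Complex.ofReal_re] at h2
    rw [Complex.re_ofReal_mul, ← h2]
    ring
  have hst := static_ineq e.lam e.pos e.sum_one D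
    (fun i j => hcomm _ _ _ _ rfl rfl) (fun i j => hcomm _ _ _ _ rfl (hDH j))
    (vacIneq_coherent hη.le hp e.U e.lam e.hU e.hU' e.pos e.eq) hq
  simp only [id_eq, one_mul, map_add, reTr_apply, Function.comp_apply, Pi.mul_apply]
  have hR : Rt α p η = -trl ℓ (Lg D (dg e.lam)) := k1
  rw [hR]
  rw [← k1] at hst ⊢
  nlinarith [k2, k3, hst]

end Vale.Agent.P369Cl
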