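/-
P369, classical inputs: the pure-loss bound for every finite mixture of coherent states.
-/
import Vale.Agent.P369Cl.Calc

open Matrix Finset Filter Topology
open scoped ComplexConjugate Matrix.Norms.L2Operator

noncomputable section

namespace Vale.Agent.P369Cl

variable {ι : Type*} [Fintype ι] [DecidableEq ι] {n : ℕ}

lemma hasSum_negMulLog {x : ℝ} (h0 : 0 ≤ x) (h1 : x ≤ 1) :
    HasSum (fun k : ℕ => x ^ (k + 2) / (((k : ℝ) + 1) * ((k : ℝ) + 2)))
      (x - Real.negMulLog (1 - x)) := by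
  rcases eq_or_lt_of_le h1 with rfl | hx
  · simp only [one_pow, sub_self, Real.negMulLog_zero, sub_zero]
    rw [hasSum_iff_tendsto_nat_of_nonneg (fun k => by positivity)]
    have hs : ∀ N : ℕ, ∑ k ∈ Finset.range N, 1 / (((k : ℝ) + 1) * ((k : ℝ) + 2))
        = 1 - 1 / ((N : ℝ) + 1) := by
      intro N
      induction N with
      | zero => simp
      | succ N ih => rw [Finset.sum_range_succ, ih]; push_cast; field_simp; ring
    simp only [hs]
    simpa using tendsto_one_div_add_atTop_nhds_zero_nat.const_sub (1 : ℝ)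
  · have ha : |x| < 1 := by rw [abs_of_nonneg h0]; exact hx
    have hL := Real.hasSum_pow_div_log_of_abs_lt_one ha
    have h2 := ((hasSum_nat_add_iff' 1).2 hL)
    simp only [Finset.sum_range_one, zero_add, pow_one, Nat.cast_zero, div_one] at h2
    have := (hL.mul_left x).sub h2
    rw [Real.negMulLog, show x - -(1 - x) * Real.log (1 - x)
      = x * -Real.log (1 - x) - (-Real.log (1 - x) - x) by ring]
    refine this.congr_fun fun k => ?_
    push_cast
    field_simp
    ring

lemma frm_nonneg {α : ι → Fin n → ℂ} {p : ι → ℝ} {η : ℝ} (hη : 0 ≤ η) (hp : ∀ a, 0 ≤ p a)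
    (x : ι → ℂ) : 0 ≤ frm (coherentGram α p η) x :=
  (frm_hasSum hη hp 0 x).nonneg fun _ => div_nonneg (Qd_nonneg _ _ _) (Nat.cast_nonneg _)

/-- Eigen-data for possibly singular parameters. -/
lemma eig_weak (α : ι → Fin n → ℂ) {p : ι → ℝ} (hp : ∀ a, 0 ≤ p a) (hp1 : ∑ a, p a = 1)
    {η : ℝ} (hη : 0 ≤ η) :
    ∃ (U : Matrix ι ι ℂ) (lam : ι → ℝ), Uᴴ * U = 1 ∧ U * Uᴴ = 1 ∧
      (∀ k, 0 ≤ lam k ∧ lam k ≤ 1) ∧ ∑ k, lam k = 1 ∧
      coherentGram α p η = U * dg lam * Uᴴ := by
  set hG := coherentGram_herm α p η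
  have hU : (hG.eigenvectorUnitary : Matrix ι ι ℂ)ᴴ * hG.eigenvectorUnitary = 1 :=
    Unitary.coe_star_mul_self _
  have heq : coherentGram α p η = (hG.eigenvectorUnitary : Matrix ι ι ℂ) * dg hG.eigenvalues
      * (hG.eigenvectorUnitary : Matrix ι ι ℂ)ᴴ := by
    have := hG.spectral_theorem
    rw [Unitary.conjStarAlgAut_apply] at this
    exact this
  have hnn : ∀ k, 0 ≤ hG.eigenvalues k := by
    intro k
    rw [hG.eigenvalues_eq]
    refine le_of_le_of_eq (frm_nonneg (α := α) hη hp (⇑(hG.eigenvectorBasis k))) ?_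
    simp only [frm, dotProduct, Matrix.mulVec, Finset.mul_sum, Pi.star_apply, Complex.star_def,
      RCLike.re_to_complex]
    congr 1
    exact Finset.sum_congr rfl fun a _ => Finset.sum_congr rfl fun b _ => by ring
  have hsum : ∑ k, hG.eigenvalues k = 1 := by
    have h := hG.trace_eq_sum_eigenvalues
    have h' : (coherentGram α p η).trace = ∑ a, (p a : ℂ) :=
      Finset.sum_congr rfl fun a _ => coherentGram_diag α hp η a
    rw [h'] at h
    rw [← hp1]
    exact Complex.ofReal_injective (by push_cast; exact h.symm)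
  exact ⟨_, hG.eigenvalues, hU, Unitary.coe_mul_star_self _, fun k => ⟨hnn k,
    hsum ▸ Finset.single_le_sum (fun i _ => hnn i) (Finset.mem_univ k)⟩, hsum, heq⟩

/-- The entropy as a series that converges uniformly. -/
def serEnt (α : ι → Fin n → ℂ) (p : ι → ℝ) (η : ℝ) : ℝ :=
  reTr (1 - coherentGram α p η) - ∑' k : ℕ,
    reTr ((1 - coherentGram α p η) ^ (k + 2)) / (((k : ℝ) + 1) * ((k : ℝ) + 2))

lemma norm_le_one (α : ι → Fin n → ℂ) {p : ι → ℝ} (hp : ∀ a, 0 ≤ p a) (hp1 : ∑ a, p a = 1)
    {η : ℝ} (hη : 0 ≤ η) : ‖1 - coherentGram α p η‖ ≤ 1 := by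
  obtain ⟨U, lam, hU, hU', hlam, _, heq⟩ := eig_weak α hp hp1 hη
  rw [heq, one_sub_conj _ hU', norm_conj_dg _ hU hU', pi_norm_le_iff_of_nonneg zero_le_one]
  intro k
  rw [Complex.norm_real, Real.norm_eq_abs, abs_le]
  constructor <;> linarith [(hlam k).1, (hlam k).2]

lemma matrixEntropy_eq_serEnt (α : ι → Fin n → ℂ) {p : ι → ℝ} (hp : ∀ a, 0 ≤ p a)
    (hp1 : ∑ a, p a = 1) {η : ℝ} (hη : 0 ≤ η) :
    matrixEntropy (coherentGram α p η) = serEnt α p η := by
  obtain ⟨U, lam, hU, hU', hlam, _, heq⟩ := eig_weak α hp hp1 hη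
  have htr : ∀ f : ι → ℝ, reTr (U * dg f * Uᴴ) = ∑ a, f a := fun f => by
    rw [reTr_apply, Matrix.trace_mul_comm, ← Matrix.mul_assoc, hU, Matrix.one_mul, dg,
      Matrix.trace_diagonal, Complex.re_sum]
    simp
  have hs : HasSum (fun k : ℕ =>
      reTr ((1 - coherentGram α p η) ^ (k + 2)) / (((k : ℝ) + 1) * ((k : ℝ) + 2)))
      (∑ a, ((1 - lam a) - Real.negMulLog (lam a))) := by
    have := hasSum_sum (s := (Finset.univ : Finset ι)) fun a _ =>
      hasSum_negMulLog (x := 1 - lam a) (by linarith [(hlam a).2]) (by linarith [(hlam a).1])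
    simp only [sub_sub_cancel] at this
    refine this.congr_fun fun k => ?_
    rw [heq, one_sub_conj _ hU', conj_pow _ hU hU', dg_pow, htr, Finset.sum_div]
  rw [serEnt, hs.tsum_eq, heq, matrixEntropy_conj _ hU, one_sub_conj _ hU', htr,
    ]
  simp [Finset.sum_sub_distrib]

/-- Continuity of the entropy in all parameters. -/
lemma continuousOn_entropy {X : Type*} [TopologicalSpace X] {s : Set X}
    (f : X → ι → Fin n → ℂ) (g : X → ι → ℝ) (h : X → ℝ) (hf : Continuous f) (hg : Continuous g)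
    (hh : Continuous h) (hs : ∀ x ∈ s, (∀ a, 0 ≤ g x a) ∧ ∑ a, g x a = 1 ∧ 0 ≤ h x) :
    ContinuousOn (fun x => matrixEntropy (coherentGram (f x) (g x) (h x))) s := by
  have hc : Continuous fun x => 1 - coherentGram (f x) (g x) (h x) := by
    refine continuous_const.sub ?_
    refine (continuous_matrix fun a b => ?_ :
      Continuous fun x => coherentGram (f x) (g x) (h x))
    have hfa : ∀ a k, Continuous fun x => f x a k := fun a k =>
      (continuous_apply k).comp ((continuous_apply a).comp hf)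
    have hga : ∀ a, Continuous fun x => g x a := fun a => (continuous_apply a).comp hg
    simp only [coherentGram, Matrix.of_apply, Complex.normSq_eq_norm_sq]
    fun_prop
  refine ContinuousOn.congr ?_ fun x hx =>
    matrixEntropy_eq_serEnt (f x) (hs x hx).1 (hs x hx).2.1 (hs x hx).2.2
  refine ((reTr.continuous.comp hc).continuousOn).sub ?_
  have hsum : Summable fun k : ℕ => ‖(reTr : Matrix ι ι ℂ →L[ℝ] ℝ)‖
      * ((1 : ℝ) ^ (k + 2) / (((k : ℝ) + 1) * ((k : ℝ) + 2))) :=
    (hasSum_negMulLog zero_le_one le_rfl).summable.mul_left _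
  refine continuousOn_tsum (fun k => ?_) hsum fun k x hx => ?_
  · exact ((reTr.continuous.comp (hc.pow _)).div_const _).continuousOn
  · rw [norm_div, Real.norm_of_nonneg (show (0 : ℝ) ≤ ((k : ℝ) + 1) * ((k : ℝ) + 2) by positivity),
      mul_div_assoc', one_pow, mul_one]
    refine div_le_div_of_nonneg_right ?_ (by positivity)
    refine le_trans (ContinuousLinearMap.le_opNorm (reTr (ι := ι)) _) (mul_le_of_le_one_right (norm_nonneg (reTr (ι := ι))) ?_)
    refine le_trans (norm_pow_le' _ (by omega)) (pow_le_one₀ (norm_nonneg _) ?_)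
    exact norm_le_one (f x) (hs x hx).1 (hs x hx).2.1 (hs x hx).2.2

lemma matrixEntropy_nonneg (α : ι → Fin n → ℂ) {p : ι → ℝ} (hp : ∀ a, 0 ≤ p a)
    (hp1 : ∑ a, p a = 1) {η : ℝ} (hη : 0 ≤ η) : 0 ≤ matrixEntropy (coherentGram α p η) := by
  obtain ⟨U, lam, hU, hU', hlam, _, heq⟩ := eig_weak α hp hp1 hη
  rw [heq, matrixEntropy_conj _ hU]
  exact Finset.sum_nonneg fun a _ => Real.negMulLog_nonneg (hlam a).1 (hlam a).2

lemma continuous_gg : Continuous gg :=
  Real.continuous_negMulLog.sub (Real.continuous_negMulLog.comp (continuous_id.add continuous_const))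

lemma gg_zero : gg 0 = 0 := by simp [gg]

/-- The comparison, for distinct points and positive weights. -/
lemma compare_pos (α : ι → Fin n → ℂ) {p : ι → ℝ} (hp : ∀ a, 0 < p a) (hp1 : ∑ a, p a = 1)
    (hα : Function.Injective α) {η r : ℝ} (hη0 : 0 ≤ η) (hη1 : η ≤ 1) (hr : 0 < r)
    (h1 : n * gg r ≤ Ent α p 1) : n * gg (η * r) ≤ Ent α p η := by
  set D : ℝ → ℝ := fun t => Ent α p t - n * gg (t * r) with hD
  set Δ : ℝ → ℝ := fun t => Rt α p t - n * ff (t * r) with hΔ
  have hDc : ContinuousOn D (Set.Icc 0 1) := by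
    refine ContinuousOn.sub ?_ ((continuous_gg.comp (continuous_id.mul continuous_const)).continuousOn.const_smul (n : ℝ))
    exact continuousOn_entropy (fun _ => α) (fun _ => p) id continuous_const continuous_const
      continuous_id fun t ht => ⟨fun a => (hp a).le, hp1, ht.1⟩
  have hDd : ∀ t, 0 < t → HasDerivAt D (Δ t / t) t := by
    intro t ht
    have hg : HasDerivAt (fun t => gg (t * r)) (Real.log (1 + 1 / (t * r)) * r) t :=
      HasDerivAt.comp (h := fun x => x * r) t (hasDerivAt_gg (mul_pos ht hr)) (hasDerivAt_mul_const r)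
    refine ((hasDerivAt_Ent ht hp hp1 hα).sub (hg.const_mul (n : ℝ))).congr_deriv ?_
    simp only [hΔ, ff]
    field_simp
  have hΔd : ∀ t, 0 < t → ∃ d, HasDerivAt Δ d t ∧ (0 < Δ t → t * d ≤ Δ t) := by
    intro t ht
    obtain ⟨d, hd, hineq⟩ := rate_ineq ht hp hp1 hα
    set τ := t * r with hτ
    have hτ0 : 0 < τ := mul_pos ht hr
    have hf : HasDerivAt (fun t => ff (t * r)) ((Real.log (1 + 1 / τ) - 1 / (τ + 1)) * r) t :=
      HasDerivAt.comp (h := fun x => x * r) (h₂ := ff) t (by rw [← hτ]; exact hasDerivAt_ff hτ0)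
        (hasDerivAt_mul_const r)
    refine ⟨_, hd.sub (hf.const_mul (n : ℝ)), fun hpos => ?_⟩
    have hq : (1 : ℝ) < 1 + 1 / τ := by simp [hτ0]
    have hi := hineq _ hq
    have htan := tangent_ff hτ0
    have hB := Bp_pos hq
    have e : t * ((n : ℝ) * ((Real.log (1 + 1 / τ) - 1 / (τ + 1)) * r))
        = n * ff τ - n * (τ / (τ + 1)) := by
      simp only [ff, hτ]
      field_simp
    rw [mul_sub, e, ← htan]
    have hΔt : Δ t = Rt α p t - n * ff τ := rfl
    nlinarith [mul_pos hB hpos]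
  have hback : ∀ a b, 0 < a → a ≤ b → Δ a ≤ 0 → Δ b ≤ 0 := by
    intro a b ha hab hΔa
    by_contra hc
    push Not at hc
    have hcont : ContinuousOn Δ (Set.Icc a b) := fun t ht => by
      obtain ⟨d, hd, _⟩ := hΔd t (ha.trans_le ht.1)
      exact hd.continuousAt.continuousWithinAt
    set S := Set.Icc a b ∩ Δ ⁻¹' Set.Iic 0 with hS
    have hSc : IsCompact S :=
      isCompact_Icc.of_isClosed_subset (hcont.preimage_isClosed_of_isClosed isClosed_Icc isClosed_Iic)
        Set.inter_subset_left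
    obtain ⟨c, hcS, hcmax⟩ := hSc.exists_isMaxOn (f := id) ⟨a, ⟨le_rfl, hab⟩, hΔa⟩
      continuous_id.continuousOn
    have hcb : c < b := lt_of_le_of_ne hcS.1.2 fun e => by
      have hh : Δ c ≤ 0 := hcS.2
      rw [e] at hh
      linarith
    have hc0 : 0 < c := ha.trans_le hcS.1.1
    have hanti : AntitoneOn (fun t => Δ t / t) (Set.Icc c b) := by
      refine antitoneOn_of_deriv_nonpos (convex_Icc c b)
        ((hcont.mono (Set.Icc_subset_Icc hcS.1.1 le_rfl)).div continuousOn_id
          fun t ht => (hc0.trans_le ht.1).ne') (fun t ht => ?_) fun t ht => ?_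
      all_goals rw [interior_Icc] at ht
      all_goals obtain ⟨d, hd, hle⟩ := hΔd t (hc0.trans ht.1)
      all_goals have hdd := hd.div (hasDerivAt_id t) (hc0.trans ht.1).ne'
      · exact hdd.differentiableAt.differentiableWithinAt
      · rw [show (fun t => Δ t / t) = Δ / id from rfl, hdd.deriv]
        refine div_nonpos_of_nonpos_of_nonneg ?_ (sq_nonneg _)
        have hpos : 0 < Δ t := by
          by_contra h
          push Not at h
          have := hcmax (show t ∈ S from ⟨⟨hcS.1.1.trans ht.1.le, ht.2.le⟩, h⟩)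
          exact absurd this (not_le.2 ht.1)
        simp only [id_eq, mul_one]
        linarith [hle hpos]
    have := hanti (Set.left_mem_Icc.2 hcb.le) (Set.right_mem_Icc.2 hcb.le) hcb.le
    have h2 : Δ c / c ≤ 0 := div_nonpos_of_nonpos_of_nonneg hcS.2 hc0.le
    have h3 : 0 < Δ b / b := div_pos hc (hc0.trans hcb)
    simp only at this
    linarith
  suffices 0 ≤ D η by simp only [hD] at this; linarith
  by_cases hneg : ∃ c, 0 < c ∧ c ≤ η ∧ Δ c ≤ 0
  · obtain ⟨c, hc0, hcη, hc⟩ := hneg
    have hη : 0 < η := hc0.trans_le hcη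
    have hanti : AntitoneOn D (Set.Icc η 1) := by
      refine antitoneOn_of_deriv_nonpos (convex_Icc η 1)
        (hDc.mono (Set.Icc_subset_Icc hη0 le_rfl)) (fun t ht => ?_) fun t ht => ?_
      all_goals rw [interior_Icc] at ht
      · exact (hDd t (hη.trans ht.1)).differentiableAt.differentiableWithinAt
      · rw [(hDd t (hη.trans ht.1)).deriv]
        exact div_nonpos_of_nonpos_of_nonneg (hback c t hc0 (hcη.trans ht.1.le) hc)
          (hη.trans ht.1).le
    have := hanti (Set.left_mem_Icc.2 hη1) (Set.right_mem_Icc.2 hη1) hη1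
    have h1' : 0 ≤ D 1 := by simp only [hD, one_mul]; linarith
    linarith
  · push Not at hneg
    have hmono : MonotoneOn D (Set.Icc 0 η) := by
      refine monotoneOn_of_deriv_nonneg (convex_Icc 0 η)
        (hDc.mono (Set.Icc_subset_Icc le_rfl hη1)) (fun t ht => ?_) fun t ht => ?_
      all_goals rw [interior_Icc] at ht
      · exact (hDd t ht.1).differentiableAt.differentiableWithinAt
      · rw [(hDd t ht.1).deriv]
        exact div_nonneg (hneg t ht.1 ht.2.le).le ht.1.le
    have := hmono (Set.left_mem_Icc.2 hη0) (Set.right_mem_Icc.2 hη0) hη0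
    have h0 : 0 ≤ D 0 := by
      simp only [hD, zero_mul, gg_zero, mul_zero, sub_zero]
      exact matrixEntropy_nonneg α (fun a => (hp a).le) hp1 le_rfl
    linarith

/-- Classical inputs through a pure-loss channel: `N(ρ_C) ≥ η N(ρ_A)`. -/
theorem classical_pure_loss (α : ι → Fin n → ℂ) {p : ι → ℝ} (hp : ∀ a, 0 ≤ p a)
    (hp1 : ∑ a, p a = 1) {η r : ℝ} (hη0 : 0 ≤ η) (hη1 : η ≤ 1) (hr : 0 ≤ r)
    (h1 : n * gg r ≤ matrixEntropy (coherentGram α p 1)) :
    n * gg (η * r) ≤ matrixEntropy (coherentGram α p η) := by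
  rcases Nat.eq_zero_or_pos n with hn | hn
  · subst hn; simpa using matrixEntropy_nonneg α hp hp1 hη0
  rcases eq_or_lt_of_le hr with hr0 | hrpos
  · subst hr0; simpa [gg_zero] using matrixEntropy_nonneg α hp hp1 hη0
  have hnR : (0 : ℝ) < n := by exact_mod_cast hn
  -- perturbed parameters
  set N : ℝ := (Fintype.card ι : ℝ)
  set idx : ι → ℂ := fun a => ((Fintype.equivFin ι a : ℕ) : ℂ) with hidx
  set αε : ℝ → ι → Fin n → ℂ := fun ε a k => α a k + (ε : ℂ) * idx a with hαε
  set pε : ℝ → ι → ℝ := fun ε a => (p a + |ε|) / (1 + N * |ε|) with hpε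
  have hN0 : ∀ ε : ℝ, 0 < 1 + N * |ε| := fun ε => by positivity
  have hpε1 : ∀ ε, ∑ a, pε ε a = 1 := fun ε => by
    simp only [hpε, ← Finset.sum_div, Finset.sum_add_distrib, hp1, Finset.sum_const,
      Finset.card_univ, nsmul_eq_mul]
    exact div_self (hN0 ε).ne'
  have hpε0 : ∀ ε a, 0 ≤ pε ε a := fun ε a =>
    div_nonneg (add_nonneg (hp a) (abs_nonneg _)) (hN0 ε).le
  have hcp : Continuous pε := continuous_pi fun a => by
    have : ∀ ε : ℝ, 1 + N * |ε| ≠ 0 := fun ε => (hN0 ε).ne'
    simp only [hpε]; fun_prop (disch := assumption)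
  have hcα : Continuous αε :=
    continuous_pi fun a => continuous_pi fun k => by simp only [hαε]; fun_prop
  have hpe0 : pε 0 = p := by funext a; simp [hpε]
  have hαe0 : αε 0 = α := by funext a k; simp [hαε]
  have hlim : ∀ t : ℝ, 0 ≤ t → Tendsto (fun ε => matrixEntropy (coherentGram (αε ε) (pε ε) t))
      (𝓝[>] 0) (𝓝 (matrixEntropy (coherentGram α p t))) := by
    intro t ht
    have := continuousOn_entropy (s := (Set.univ : Set ℝ)) αε pε (fun _ => t) hcα hcp
      continuous_const (fun ε _ => ⟨hpε0 ε, hpε1 ε, ht⟩)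
    have h := ((continuousOn_univ.1 this).tendsto 0)
    rw [hpe0, hαe0] at h
    exact h.mono_left nhdsWithin_le_nhds
  -- distinct points for small positive ε
  have hinj : ∀ᶠ ε in 𝓝[>] (0 : ℝ), Function.Injective (αε ε) := by
    have hpair : ∀ a b : ι, a ≠ b → ∀ᶠ ε in 𝓝[>] (0 : ℝ), αε ε a ≠ αε ε b := by
      intro a b hab
      have hne : idx a ≠ idx b := by
        simp only [hidx, ne_eq, Nat.cast_inj, Fin.val_inj]
        exact fun h => hab ((Fintype.equivFin ι).injective h)
      set k0 : Fin n := ⟨0, hn⟩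
      by_cases hαab : α a k0 = α b k0
      · filter_upwards [self_mem_nhdsWithin] with ε hε h
        have := congrFun h k0
        simp only [hαε, hαab, add_right_inj] at this
        exact hne (mul_left_cancel₀ (by simpa using (ne_of_gt (show (0:ℝ) < ε from hε))) this)
      · have hcont : Continuous fun ε : ℝ => αε ε a k0 - αε ε b k0 := by
          simp only [hαε]; fun_prop
        have hev : ∀ᶠ ε in 𝓝 (0 : ℝ), αε ε a k0 - αε ε b k0 ≠ 0 :=
          (hcont.tendsto 0).eventually_ne (by simp [hαε, sub_eq_zero, hαab])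
        filter_upwards [hev.filter_mono nhdsWithin_le_nhds] with ε hε h
        exact hε (by rw [h, sub_self])
    have hall : ∀ᶠ ε in 𝓝[>] (0 : ℝ), ∀ a b : ι, a ≠ b → αε ε a ≠ αε ε b := by
      refine eventually_all.2 fun a => eventually_all.2 fun b => ?_
      by_cases hab : a = b
      · exact Eventually.of_forall fun _ h => absurd hab h
      · exact (hpair a b hab).mono fun _ h _ => h
    filter_upwards [hall] with ε h a b hab
    by_contra hne
    exact h a b hne hab
  have key : ∀ r' : ℝ, 0 < r' → r' < r →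
      n * gg (η * r') ≤ matrixEntropy (coherentGram α p η) := by
    intro r' hr' hlt
    have hggm : gg r' < gg r := by
      refine strictMonoOn_of_deriv_pos (convex_Icc r' r) continuous_gg.continuousOn (fun t ht => ?_)
        (Set.left_mem_Icc.2 hlt.le) (Set.right_mem_Icc.2 hlt.le) hlt
      rw [interior_Icc] at ht
      have ht0 : 0 < t := hr'.trans ht.1
      rw [(hasDerivAt_gg ht0).deriv]
      exact Real.log_pos (by simp [ht0])
    have hev : ∀ᶠ ε in 𝓝[>] (0 : ℝ), n * gg r' < matrixEntropy (coherentGram (αε ε) (pε ε) 1) :=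
      (hlim 1 zero_le_one).eventually_const_lt
        (lt_of_lt_of_le (mul_lt_mul_of_pos_left hggm hnR) h1)
    refine ge_of_tendsto (hlim η hη0) ?_
    filter_upwards [hev, hinj, self_mem_nhdsWithin] with ε h hi hε
    have hε' : (0 : ℝ) < ε := hε
    exact compare_pos (αε ε) (fun a => div_pos (by have := hp a; positivity) (hN0 ε)) (hpε1 ε) hi
      hη0 hη1 hr' h.le
  have hcg : Continuous fun r' => (n : ℝ) * gg (η * r') :=
    continuous_const.mul (continuous_gg.comp (continuous_const.mul continuous_id))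
  refine le_of_tendsto ((hcg.tendsto r).mono_left (nhdsWithin_le_nhds (s := Set.Iio r))) ?_
  filter_upwards [Ioo_mem_nhdsLT hrpos] with r' h using key r' h.1 h.2

end Vale.Agent.P369Cl
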